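import Vale.Agent.P017.H689.R12

set_option autoImplicit false

/-!
# `R1 → R2` for every squarefree `d = 3` mod `4`

The Redei matrix `M` of `d` has off-diagonal entries the symbols of `q_j` mod `q_i`, its transpose
has off-diagonal entries the symbols of `q_j^*` mod `q_i`, and the rows and the columns of `M` sum
to zero. `R1` says that the kernel of `M` is `{0, 1}`, `R2` that the kernel of the transpose is.
-/

namespace Vale.P017.H689

open Finset

/-- linear algebra over `ZMod 2`: the transposed matrix has the smallest possible kernel too -/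
theorem ker_transpose' {ι : Type*} [Fintype ι] [DecidableEq ι] [Nonempty ι]
    (M : Matrix ι ι (ZMod 2)) (hone : M.mulVec 1 = 0) (honeT : M.transpose.mulVec 1 = 0)
    (hker : ∀ x : ι → ZMod 2, M.mulVec x = 0 → x = 0 ∨ x = 1)
    (x : ι → ZMod 2) (hxT : M.transpose.mulVec x = 0) : x = 0 ∨ x = 1 := by
  have hz : ∀ c : ZMod 2, c = 0 ∨ c = 1 := by decide
  have hd1 : Module.finrank (ZMod 2) (LinearMap.ker M.mulVecLin) ≤ 1 := by
    rw [finrank_le_one_iff]
    refine ⟨⟨1, by simpa using hone⟩, fun w => ?_⟩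
    obtain ⟨w, hw⟩ := w
    rcases hker w (by simpa using hw) with h | h
    · exact ⟨0, by ext1; simp [h]⟩
    · exact ⟨1, by ext1; simp [h]⟩
  have hd2 : Module.finrank (ZMod 2) (LinearMap.ker M.transpose.mulVecLin) ≤ 1 := by
    have e1 := LinearMap.finrank_range_add_finrank_ker M.mulVecLin
    have e2 := LinearMap.finrank_range_add_finrank_ker M.transpose.mulVecLin
    have e3 : Module.finrank (ZMod 2) (LinearMap.range M.transpose.mulVecLin)
        = Module.finrank (ZMod 2) (LinearMap.range M.mulVecLin) := Matrix.rank_transpose M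
    omega
  rw [finrank_le_one_iff] at hd2
  obtain ⟨v, hv⟩ := hd2
  by_cases hx0 : x = 0
  · exact Or.inl hx0
  right
  have hall : ∀ w : LinearMap.ker M.transpose.mulVecLin, w ≠ 0 → w = v := by
    intro w hw
    obtain ⟨c, hc⟩ := hv w
    rcases hz c with h | h
    · exact absurd (by rw [← hc, h, zero_smul]) hw
    · rw [← hc, h, one_smul]
  have w1 : (⟨x, by rw [LinearMap.mem_ker, Matrix.mulVecLin_apply]; exact hxT⟩ :
      LinearMap.ker M.transpose.mulVecLin) = v := by
    apply hall
    intro h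
    exact hx0 (congrArg Subtype.val h)
  have w2 : (⟨1, by rw [LinearMap.mem_ker, Matrix.mulVecLin_apply]; exact honeT⟩ :
      LinearMap.ker M.transpose.mulVecLin) = v := by
    apply hall
    intro h
    have := congrArg Subtype.val h
    exact one_ne_zero this
  exact congrArg Subtype.val (w1.trans w2.symm)

/-- `∏ q`, all `q` odd, is `(-1)^#{q = 3 mod 4}` mod `4` -/
theorem prod_mod_four' (S : Finset ℕ) (h : ∀ q ∈ S, q % 2 = 1) :
    ((∏ q ∈ S, q : ℕ) : ZMod 4) = (-1) ^ (S.filter (fun q => q % 4 = 3)).card := by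
  induction S using Finset.induction_on with
  | empty => simp
  | insert a s ha ih =>
    rw [Finset.prod_insert ha, Nat.cast_mul, ih (fun q hq => h q (Finset.mem_insert_of_mem hq)),
      Finset.filter_insert]
    have h2 := h a (Finset.mem_insert_self a s)
    by_cases h3 : a % 4 = 3
    · rw [if_pos h3, Finset.card_insert_of_notMem (by simp [ha]), pow_succ]
      have h4 : ((a : ℕ) : ZMod 4) = ((3 : ℕ) : ZMod 4) := by
        rw [ZMod.natCast_eq_natCast_iff]; exact h3
      rw [h4, mul_comm]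
      have : ((3 : ℕ) : ZMod 4) = -1 := by decide
      rw [this]
    · rw [if_neg h3]
      have h4 : ((a : ℕ) : ZMod 4) = ((1 : ℕ) : ZMod 4) := by
        rw [ZMod.natCast_eq_natCast_iff]
        show a % 4 = 1 % 4
        omega
      rw [h4]; simp

/-- quadratic reciprocity -/
theorem ee_rec' {p q : ℕ} (hp : p.Prime) (hq : q.Prime) (hp2 : p % 2 = 1) (hq2 : q % 2 = 1)
    (hpq : p ≠ q) : ee p q + ee q p = if p % 4 = 3 ∧ q % 4 = 3 then 1 else 0 := by
  have two : ∀ t : ZMod 2, t + t = 0 := by decide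
  have := Fact.mk hp
  have := Fact.mk hq
  have heq : (IsSquare ((q : ℕ) : ZMod p) ↔ IsSquare ((p : ℕ) : ZMod q)) → ee p q = ee q p := by
    intro h
    by_cases h1 : IsSquare ((q : ℕ) : ZMod p)
    · rw [ee_eq_zero.mpr h1, ee_eq_zero.mpr (h.mp h1)]
    · rw [ee_eq_one.mpr h1, ee_eq_one.mpr (fun h2 => h1 (h.mpr h2))]
  have hp2' : p ≠ 2 := by omega
  have hq2' : q ≠ 2 := by omega
  by_cases h3 : p % 4 = 3
  · by_cases h3' : q % 4 = 3
    · rw [if_pos ⟨h3, h3'⟩]
      exact ee_rec hp hq h3 h3' hpq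
    · rw [if_neg (fun h => h3' h.2)]
      rw [heq, two]
      exact (ZMod.exists_sq_eq_prime_iff_of_mod_four_eq_one (by omega) hp2').symm
  · rw [if_neg (fun h => h3 h.1)]
    rw [heq, two]
    exact ZMod.exists_sq_eq_prime_iff_of_mod_four_eq_one (by omega) hq2'

theorem filter_card_odd {D : ℕ} (hsf : Squarefree D) (hD : D % 4 = 3) :
    Odd (D.primeFactors.filter (fun q => q % 4 = 3)).card := by
  have h1 : ∏ p ∈ D.primeFactors, p = D := Nat.prod_primeFactors_of_squarefree hsf
  have h2 := prod_mod_four' D.primeFactors (by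
    intro q hq
    have hqD := Nat.dvd_of_mem_primeFactors hq
    rcases (Nat.prime_of_mem_primeFactors hq).eq_two_or_odd with h | h
    · rw [h] at hqD; omega
    · exact h)
  rw [h1] at h2
  have h3 : ((D : ℕ) : ZMod 4) = ((3 : ℕ) : ZMod 4) := by
    rw [ZMod.natCast_eq_natCast_iff]; exact hD
  rw [h3] at h2
  by_contra hodd
  rw [Nat.not_odd_iff_even] at hodd
  rw [hodd.neg_one_pow] at h2
  exact absurd h2 (by decide)

/-- `ε(p, q) = 1` if both are `3` mod `4` -/
def rc (p q : ℕ) : ZMod 2 := if p % 4 = 3 ∧ q % 4 = 3 then 1 else 0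

theorem sum_rc (p : ℕ) (S : Finset ℕ) : ∑ q ∈ S, rc p q
    = if p % 4 = 3 then (((S.filter (fun q => q % 4 = 3)).card : ℕ) : ZMod 2) else 0 := by
  unfold rc
  by_cases h : p % 4 = 3
  · simp [h, Finset.sum_boole]
  · simp [h]

/-- the formula for the transposed matrix -/
theorem RMT_mulVec' {P : Finset ℕ} (hP : ∀ p ∈ P, p.Prime) (h2 : ∀ p ∈ P, p % 2 = 1)
    (hodd : Odd (P.filter (fun q => q % 4 = 3)).card) (x : P → ZMod 2) (i : P) :
    (RM P).transpose.mulVec x i
      = ∑ j ∈ Finset.univ.filter (fun j => x j ≠ x i), (ee i j + rc i j) := by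
  have two : ∀ t : ZMod 2, t + t = 0 := by decide
  have hrec : ∀ j : P, i ≠ j → ee j i = ee i j + rc i j := by
    intro j hij
    have := ee_rec' (hP i i.2) (hP j j.2) (h2 i i.2) (h2 j j.2) (fun h => hij (Subtype.ext h))
    unfold rc
    rw [← this, ← add_assoc, two, zero_add]
  have hentry : ∀ j : P, (RM P) j i = (if i = j then 0 else (ee i j + rc i j))
      + (if i = j then ∑ k : P, (if i = k then 0 else (ee i k + rc i k)) else 0) := by
    intro j
    simp only [RM]
    by_cases h : i = j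
    · subst h
      simp only [if_true, zero_add]
      have h1 : ∀ k : P, (if i = k then (0 : ZMod 2) else (ee i k + rc i k))
          = (if i = k then 0 else ee i k) + (rc i k + if i = k then rc i i else 0) := by
        intro k
        by_cases h2 : i = k
        · subst h2; simp [two]
        · simp [h2]
      rw [Finset.sum_congr rfl (fun k _ => h1 k), Finset.sum_add_distrib, Finset.sum_add_distrib]
      have hs : ∑ k : P, rc i k + ∑ k : P, (if i = k then rc i i else 0) = 0 := by
        rw [Finset.sum_ite_eq, if_pos (Finset.mem_univ _)]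
        have e1 : ∑ k : P, rc i k = ∑ q ∈ P, rc i q := Finset.sum_coe_sort P (fun q => rc i q)
        rw [e1, sum_rc]
        unfold rc
        by_cases hi : (i : ℕ) % 4 = 3
        · rw [if_pos hi, if_pos ⟨hi, hi⟩]
          obtain ⟨k, hk⟩ := hodd
          rw [hk]; push_cast
          have : (2 : ZMod 2) = 0 := by decide
          rw [this, zero_mul, zero_add]
          exact two 1
        · rw [if_neg hi, if_neg (fun h => hi h.1), add_zero]
      rw [hs, add_zero]
    · rw [if_neg (Ne.symm h), if_neg (Ne.symm h), if_neg h, if_neg h, hrec j h]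
  simp only [Matrix.mulVec, dotProduct, Matrix.transpose_apply]
  rw [Finset.sum_congr rfl (fun j _ => by rw [hentry j])]
  simp only [add_mul, Finset.sum_add_distrib, ite_mul, zero_mul]
  rw [Finset.sum_ite_eq, if_pos (Finset.mem_univ _), Finset.sum_mul]
  rw [← Finset.sum_add_distrib, ← Finset.sum_add_distrib, Finset.sum_filter]
  refine Finset.sum_congr rfl fun j _ => ?_
  have hs : ∀ s t : ZMod 2, s + t = if s ≠ t then 1 else 0 := by decide
  by_cases h : i = j
  · subst h; simp
  · rw [if_neg h, if_neg h]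
    by_cases h2 : x j ≠ x i
    · rw [if_pos h2]
      have := hs (x j) (x i)
      rw [if_pos h2] at this
      calc _ = (ee i j + rc i j) * (x j + x i) := by ring
        _ = _ := by rw [this, mul_one]
    · rw [if_neg h2]
      have := hs (x j) (x i)
      rw [if_neg h2] at this
      calc _ = (ee i j + rc i j) * (x j + x i) := by ring
        _ = _ := by rw [this, mul_zero]

theorem sq_neg_pow' {p : ℕ} (hp : p.Prime) {m : ℕ} (hm : ¬ p ∣ m) (k : ℕ)
    (h : IsSquare ((((-1) ^ k * m : ℤ)) : ZMod p)) :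
    ee p m + (if p % 4 = 3 then (k : ZMod 2) else 0) = 0 := by
  by_cases h4 : p % 4 = 3
  · rw [if_pos h4]
    exact sq_neg_pow hp h4 hm k h
  · rw [if_neg h4, add_zero, ee_eq_zero]
    have := Fact.mk hp
    have hm1 : IsSquare (-1 : ZMod p) := by
      rw [ZMod.exists_sq_eq_neg_one_iff]; exact h4
    push_cast at h
    have h5 := (hm1.pow k).mul h
    rw [← mul_assoc, ← mul_pow] at h5
    simpa using h5

/-- an odd squarefree integer `= 1` mod `4` -/
theorem sign_eq' {a : ℤ} {m : ℕ} (ham : a.natAbs = m) (hm : Squarefree m) (ha4 : a % 4 = 1) :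
    a = (-1) ^ (m.primeFactors.filter (fun q => q % 4 = 3)).card * m := by
  have h1 : ∏ p ∈ m.primeFactors, p = m := Nat.prod_primeFactors_of_squarefree hm
  have h2 := prod_mod_four' m.primeFactors (by
    intro q hq
    have hqm := Nat.dvd_of_mem_primeFactors hq
    rcases (Nat.prime_of_mem_primeFactors hq).eq_two_or_odd with h | h
    · rw [h] at hqm; omega
    · exact h)
  rw [h1] at h2
  rcases Nat.even_or_odd (m.primeFactors.filter (fun q => q % 4 = 3)).card with hk | hk
  · rw [hk.neg_one_pow] at h2 ⊢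
    have h3 : ((m : ℕ) : ZMod 4) = ((1 : ℕ) : ZMod 4) := by simpa using h2
    rw [ZMod.natCast_eq_natCast_iff] at h3
    have h5 : m % 4 = 1 := h3
    omega
  · rw [hk.neg_one_pow] at h2 ⊢
    have h3 : ((m : ℕ) : ZMod 4) = ((3 : ℕ) : ZMod 4) := by
      rw [h2]; decide
    rw [ZMod.natCast_eq_natCast_iff] at h3
    have h5 : m % 4 = 3 := h3
    omega

/-- **`R1 → R2`** for every squarefree `d = 3` mod `4` -/
theorem R2_of_R1_all_aux {d : ℕ} (hsf : Squarefree d) (h3 : d % 4 = 3)
    (hR : ∀ a c : ℕ, a * c = d → (∀ p : ℕ, p.Prime → p ∣ c → IsSquare ((a : ℤ) : ZMod p)) →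
      (∀ p : ℕ, p.Prime → p ∣ a → IsSquare ((c : ℤ) : ZMod p)) → a = 1 ∨ c = 1)
    (a b : ℤ) (hab : a * b = -d) (ha4 : a % 4 = 1) (hb4 : b % 4 = 1)
    (h1 : ∀ q : ℕ, q.Prime → (q : ℤ) ∣ b → IsSquare (a : ZMod q))
    (h2 : ∀ q : ℕ, q.Prime → (q : ℤ) ∣ a → IsSquare (b : ZMod q)) : a = 1 ∨ b = 1 := by
  classical
  have hd0 : d ≠ 0 := hsf.ne_zero
  obtain ⟨m, hm⟩ : ∃ m, a.natAbs = m := ⟨_, rfl⟩
  obtain ⟨M, hM⟩ : ∃ M, b.natAbs = M := ⟨_, rfl⟩
  have hmM : m * M = d := by
    rw [← hm, ← hM, ← Int.natAbs_mul, hab]; simp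
  have hmd : m ∣ d := ⟨M, hmM.symm⟩
  have hMd : M ∣ d := ⟨m, by rw [mul_comm]; exact hmM.symm⟩
  have hmsf : Squarefree m := hsf.squarefree_of_dvd hmd
  have hMsf : Squarefree M := hsf.squarefree_of_dvd hMd
  have hm0 : m ≠ 0 := hmsf.ne_zero
  have hM0 : M ≠ 0 := hMsf.ne_zero
  have hcopr : Nat.Coprime m M := by
    rw [← hmM] at hsf
    exact Nat.coprime_of_squarefree_mul hsf
  have ha := sign_eq' hm hmsf ha4
  have hb := sign_eq' hM hMsf hb4
  obtain ⟨P, hP⟩ : ∃ P : Finset ℕ, P = d.primeFactors := ⟨_, rfl⟩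
  have hPp : ∀ p ∈ P, p.Prime := fun p hp => Nat.prime_of_mem_primeFactors (hP ▸ hp)
  have hPd : ∀ p ∈ P, p ∣ d := fun p hp => Nat.dvd_of_mem_primeFactors (hP ▸ hp)
  have hP2 : ∀ p ∈ P, p % 2 = 1 := by
    intro p hp
    have hpd := hPd p hp
    rcases (hPp p hp).eq_two_or_odd with h | h
    · rw [h] at hpd; omega
    · exact h
  have hodd : Odd (P.filter (fun q => q % 4 = 3)).card := by rw [hP]; exact filter_card_odd hsf h3
  have hne : Nonempty P := by
    have := hodd.pos
    rw [Finset.card_pos] at this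
    obtain ⟨q, hq⟩ := this
    exact ⟨⟨q, (Finset.mem_filter.mp hq).1⟩⟩
  have hcop : ∀ p ∈ P, ∀ q ∈ P, p ≠ q → ¬ p ∣ q := by
    intro p hp q hq hpq h
    exact hpq ((Nat.prime_dvd_prime_iff_eq (hPp p hp) (hPp q hq)).mp h)
  have hform : ∀ (x : P → ZMod 2) (i : P) (S : Finset ℕ), S ⊆ P →
      (∀ q (hq : q ∈ P), q ∈ S ↔ x ⟨q, hq⟩ ≠ x i) →
      (RM P).transpose.mulVec x i = ee i (∏ q ∈ S, q)
        + (if (i : ℕ) % 4 = 3 then (((S.filter (fun q => q % 4 = 3)).card : ℕ) : ZMod 2)
            else 0) := by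
    intro x i S hSP hS
    rw [RMT_mulVec' hPp hP2 hodd]
    obtain ⟨S', h5, h6, h7⟩ := prod_filter_coe P (fun j => x j ≠ x i)
    rw [h7 (fun q => ee i q + rc i q)]
    have : S' = S := by
      ext q
      constructor
      · intro hq
        exact (hS q (h5 hq)).mpr ((h6 q (h5 hq)).mp hq)
      · intro hq
        exact (h6 q (hSP hq)).mpr ((hS q (hSP hq)).mp hq)
    rw [this, ee_prod (hPp i i.2), Finset.sum_add_distrib, sum_rc]
    intro q hq
    apply hcop i i.2 q (hSP hq)
    intro h
    have := (hS q (hSP hq)).mp hq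
    apply this
    congr 1
    exact Subtype.ext h.symm
  have hkT : (RM P).transpose.mulVec
      (fun j : P => if (j : ℕ) ∣ m then (1 : ZMod 2) else 0) = 0 := by
    funext i
    by_cases hi : (i : ℕ) ∣ m
    · have hiM : ¬ (i : ℕ) ∣ M := fun h =>
        (hPp i i.2).one_lt.ne' (Nat.dvd_one.mp (hcopr ▸ Nat.dvd_gcd hi h))
      rw [hform _ i M.primeFactors (hP ▸ Nat.primeFactors_mono hMd hd0),
        Nat.prod_primeFactors_of_squarefree hMsf]
      · apply sq_neg_pow' (hPp i i.2) hiM
        rw [← hb]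
        apply h2 i (hPp i i.2)
        rw [← Int.natAbs_dvd_natAbs, hm]; simpa using hi
      · intro q hq
        simp only [hi, if_true]
        have hqp := hPp q hq
        constructor
        · intro hqc
          have hqc' := Nat.dvd_of_mem_primeFactors hqc
          have : ¬ q ∣ m := fun h => hqp.one_lt.ne' (Nat.dvd_one.mp (hcopr ▸ Nat.dvd_gcd h hqc'))
          simp [this]
        · intro h
          have hna : ¬ q ∣ m := by
            intro h'; simp [h'] at h
          have hqD := hPd q hq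
          rw [← hmM] at hqD
          rcases (Nat.Prime.dvd_mul hqp).mp hqD with h' | h'
          · exact absurd h' hna
          · exact Nat.mem_primeFactors.mpr ⟨hqp, h', hM0⟩
    · have hiM : (i : ℕ) ∣ M := by
        have hqD := hPd i i.2
        rw [← hmM] at hqD
        rcases (Nat.Prime.dvd_mul (hPp i i.2)).mp hqD with h' | h'
        · exact absurd h' hi
        · exact h'
      rw [hform _ i m.primeFactors (hP ▸ Nat.primeFactors_mono hmd hd0),
        Nat.prod_primeFactors_of_squarefree hmsf]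
      · apply sq_neg_pow' (hPp i i.2) hi
        rw [← ha]
        apply h1 i (hPp i i.2)
        rw [← Int.natAbs_dvd_natAbs, hM]; simpa using hiM
      · intro q hq
        simp only [hi, if_false]
        have hqp := hPp q hq
        constructor
        · intro hqa
          simp [Nat.dvd_of_mem_primeFactors hqa]
        · intro h
          have hna : q ∣ m := by
            by_contra h'; simp [h'] at h
          exact Nat.mem_primeFactors.mpr ⟨hqp, hna, hm0⟩
  have honeT : (RM P).transpose.mulVec 1 = 0 := by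
    funext i
    rw [RMT_mulVec' hPp hP2 hodd]
    simp
  have hone : (RM P).mulVec 1 = 0 := by
    funext i
    rw [RM_mulVec P 1 i]
    simp
  have hfin := ker_transpose' (RM P) hone honeT (fun x hx => kernel_R1 hP hsf hR x hx) _ hkT
  rcases hfin with h | h
  · left
    have hm1 : m = 1 := by
      by_contra hm1
      obtain ⟨p, hp, hpm⟩ := Nat.exists_prime_and_dvd hm1
      have hpP : p ∈ P := hP ▸ Nat.mem_primeFactors.mpr ⟨hp, hpm.trans hmd, hd0⟩
      have := congrFun h ⟨p, hpP⟩
      simp [hpm] at this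
    rw [hm1] at hm
    omega
  · right
    have hM1 : M = 1 := by
      by_contra hM1
      obtain ⟨p, hp, hpM⟩ := Nat.exists_prime_and_dvd hM1
      have hpP : p ∈ P := hP ▸ Nat.mem_primeFactors.mpr ⟨hp, hpM.trans hMd, hd0⟩
      have hpm : ¬ p ∣ m := fun h' =>
        hp.one_lt.ne' (Nat.dvd_one.mp (hcopr ▸ Nat.dvd_gcd h' hpM))
      have := congrFun h ⟨p, hpP⟩
      simp [hpm] at this
    rw [hM1] at hM
    omega

end Vale.P017.H689
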