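import Vale.Agent.P017.H689.R12G
import Vale.Agent.P017.H390.Comp

set_option autoImplicit false

namespace Vale.Agent.P017.H689

open Vale.Agent.P017.H390

/-- **`R1 → R2`** for every squarefree `d = 3` mod `4` -/
theorem R2_of_R1_all {d : ℕ} (hsf : Squarefree d) (h4 : d % 4 = 3) (h1 : R1 d) : R2 d :=
  fun a b hab ha hb h2 h3 => Vale.P017.H689.R2_of_R1_all_aux hsf h4 h1 a b hab ha hb h2 h3

end Vale.Agent.P017.H689
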