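import Vale.Agent.P017.H689.T2
import Vale.Agent.P017.H524.Defs

set_option autoImplicit false

namespace Vale.Agent.P017.H689

open Vale.Agent.P017.H524

/-- **(T2)** in terms of `SqMod` -/
theorem T2 {d : ℕ} (hsf : Squarefree d) (hd4 : d % 4 = 1)
    (H : ∀ t a b : ℕ, (t = 1 ∨ t = 2) → a * b = d → SqMod ((t : ℤ) * a) b →
      SqMod ((t : ℤ) * b) a → t = 1 ∧ (a = 1 ∨ b = 1))
    (b c : ℤ) (hbc : b * c = -d) (hb8 : b % 8 = 1) (h1 : SqMod b c) (h2 : SqMod c b) :
    b = 1 ∨ c = 1 := by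
  left
  refine Vale.P017.H689.T2_aux hsf hd4 ?_ b c hbc hb8 h1 h2
  intro t a b ht hab g1 g2
  refine H t a b ht hab ?_ ?_
  · intro q hq hqb
    have := g1 q hq (Int.natCast_dvd_natCast.mp hqb)
    push_cast at this ⊢
    exact this
  · intro q hq hqb
    have := g2 q hq (Int.natCast_dvd_natCast.mp hqb)
    push_cast at this ⊢
    exact this

end Vale.Agent.P017.H689
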