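import Vale.Agent.P017.H689.T2

set_option autoImplicit false

/-!
# Redei matrices with the extra primes `3` and `5`
-/

namespace Vale.P017.H689

open Finset

theorem ker_le_one {m n : Type*} [Fintype m] [Fintype n] [DecidableEq m] [DecidableEq n]
    (A : Matrix m n (ZMod 2)) (v : n → ZMod 2)
    (hker : ∀ x : n → ZMod 2, A.mulVec x = 0 → x = 0 ∨ x = v) :
    Module.finrank (ZMod 2) (LinearMap.ker A.mulVecLin) ≤ 1 := by
  rw [finrank_le_one_iff]
  by_cases hv : A.mulVec v = 0
  · refine ⟨⟨v, by simpa using hv⟩, fun w => ?_⟩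
    obtain ⟨w, hw⟩ := w
    rcases hker w (by simpa using hw) with h | h
    · exact ⟨0, by ext1; simp [h]⟩
    · exact ⟨1, by ext1; simp [h]⟩
  · refine ⟨0, fun w => ?_⟩
    obtain ⟨w, hw⟩ := w
    rcases hker w (by simpa using hw) with h | h
    · exact ⟨0, by ext1; simp [h]⟩
    · exact absurd (by rw [← h]; simpa using hw) hv

theorem ker_T_sq {m : Type*} [Fintype m] [DecidableEq m]
    (A : Matrix m m (ZMod 2)) (v w : m → ZMod 2)
    (hker : ∀ x : m → ZMod 2, A.mulVec x = 0 → x = 0 ∨ x = v)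
    (hw0 : w ≠ 0) (hw : A.transpose.mulVec w = 0)
    (x : m → ZMod 2) (hx : A.transpose.mulVec x = 0) : x = 0 ∨ x = w := by
  have hz : ∀ c : ZMod 2, c = 0 ∨ c = 1 := by decide
  have hd1 := ker_le_one A v hker
  have hd2 : Module.finrank (ZMod 2) (LinearMap.ker A.transpose.mulVecLin) ≤ 1 := by
    have e1 := LinearMap.finrank_range_add_finrank_ker A.mulVecLin
    have e2 := LinearMap.finrank_range_add_finrank_ker A.transpose.mulVecLin
    have e3 : Module.finrank (ZMod 2) (LinearMap.range A.transpose.mulVecLin)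
        = Module.finrank (ZMod 2) (LinearMap.range A.mulVecLin) := Matrix.rank_transpose A
    omega
  rw [finrank_le_one_iff] at hd2
  obtain ⟨u, hu⟩ := hd2
  by_cases hx0 : x = 0
  · exact Or.inl hx0
  right
  have hall : ∀ t : LinearMap.ker A.transpose.mulVecLin, t ≠ 0 → t = u := by
    intro t ht
    obtain ⟨c, hc⟩ := hu t
    rcases hz c with h | h
    · exact absurd (by rw [← hc, h, zero_smul]) ht
    · rw [← hc, h, one_smul]
  have w1 : (⟨x, by rw [LinearMap.mem_ker, Matrix.mulVecLin_apply]; exact hx⟩ :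
      LinearMap.ker A.transpose.mulVecLin) = u := by
    apply hall
    intro h
    exact hx0 (congrArg Subtype.val h)
  have w2 : (⟨w, by rw [LinearMap.mem_ker, Matrix.mulVecLin_apply]; exact hw⟩ :
      LinearMap.ker A.transpose.mulVecLin) = u := by
    apply hall
    intro h
    exact hw0 (congrArg Subtype.val h)
  exact congrArg Subtype.val (w1.trans w2.symm)

theorem ker_T_rect {m n : Type*} [Fintype m] [Fintype n] [DecidableEq m] [DecidableEq n]
    (hmn : Fintype.card n = Fintype.card m + 1)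
    (A : Matrix m n (ZMod 2)) (v : n → ZMod 2)
    (hker : ∀ x : n → ZMod 2, A.mulVec x = 0 → x = 0 ∨ x = v)
    (x : m → ZMod 2) (hx : A.transpose.mulVec x = 0) : x = 0 := by
  have hd1 := ker_le_one A v hker
  have hd2 : Module.finrank (ZMod 2) (LinearMap.ker A.transpose.mulVecLin) = 0 := by
    have e1 := LinearMap.finrank_range_add_finrank_ker A.mulVecLin
    have e2 := LinearMap.finrank_range_add_finrank_ker A.transpose.mulVecLin
    have e3 : Module.finrank (ZMod 2) (LinearMap.range A.transpose.mulVecLin)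
        = Module.finrank (ZMod 2) (LinearMap.range A.mulVecLin) := Matrix.rank_transpose A
    simp only [Module.finrank_fintype_fun_eq_card] at e1 e2
    omega
  rw [Submodule.finrank_eq_zero] at hd2
  have hmem : x ∈ LinearMap.ker A.transpose.mulVecLin := by
    rw [LinearMap.mem_ker, Matrix.mulVecLin_apply]; exact hx
  rw [hd2] at hmem
  exact (Submodule.mem_bot _).mp hmem

/-- a vector over `ZMod 2` indexed by the primes of `D` is a factorization of `D` -/
theorem split_vec {D : ℕ} {P : Finset ℕ} (hP : P = D.primeFactors) (hsf : Squarefree D)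
    (x : P → ZMod 2) : ∃ a c : ℕ, a * c = D ∧
      (∀ i : P, (i : ℕ) ∣ c → (RM P).mulVec x i = ee i a) ∧
      (∀ i : P, (i : ℕ) ∣ a → (RM P).mulVec x i = ee i c) ∧
      (∀ e : ℕ → ZMod 2, ∑ j : P, e j * x j = ∑ q ∈ a.primeFactors, e q) ∧
      (a = 1 → x = 0) ∧ (c = 1 → x = 1) := by
  classical
  have hPp : ∀ p ∈ P, p.Prime := fun p hp => Nat.prime_of_mem_primeFactors (hP ▸ hp)
  have hPd : ∀ p ∈ P, p ∣ D := fun p hp => Nat.dvd_of_mem_primeFactors (hP ▸ hp)
  have hprod : ∏ p ∈ P, p = D := by rw [hP]; exact Nat.prod_primeFactors_of_squarefree hsf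
  have hcop : ∀ p ∈ P, ∀ q ∈ P, p ≠ q → ¬ p ∣ q := by
    intro p hp q hq hpq h
    exact hpq ((Nat.prime_dvd_prime_iff_eq (hPp p hp) (hPp q hq)).mp h)
  have hz2 : ∀ s : ZMod 2, s = 0 ∨ s = 1 := by decide
  have hform : ∀ (x : P → ZMod 2) (i : P) (S : Finset ℕ), S ⊆ P →
      (∀ q (hq : q ∈ P), q ∈ S ↔ x ⟨q, hq⟩ ≠ x i) →
      (RM P).mulVec x i = ee i (∏ q ∈ S, q) := by
    intro x i S hSP hS
    have hnd : ∀ q ∈ S, ¬ (i : ℕ) ∣ q := by
      intro q hq
      apply hcop i i.2 q (hSP hq)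
      intro h
      have := (hS q (hSP hq)).mp hq
      apply this
      congr 1
      exact Subtype.ext h.symm
    rw [RM_mulVec]
    obtain ⟨S', h3, h4, h5⟩ := prod_filter_coe P (fun j => x j ≠ x i)
    rw [h5 (fun q => ee i q)]
    have : S' = S := by
      ext q
      constructor
      · intro hq
        exact (hS q (h3 hq)).mpr ((h4 q (h3 hq)).mp hq)
      · intro hq
        exact (h4 q (hSP hq)).mpr ((hS q (hSP hq)).mp hq)
    rw [this, ee_prod (hPp i i.2)]
    exact hnd
  set S := P.filter (fun q => ∃ hq : q ∈ P, x ⟨q, hq⟩ = 1) with hS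
  set S' := P.filter (fun q => ¬ ∃ hq : q ∈ P, x ⟨q, hq⟩ = 1) with hS'
  have hSm : ∀ q (hq : q ∈ P), q ∈ S ↔ x ⟨q, hq⟩ = 1 := by
    intro q hq
    rw [hS, Finset.mem_filter]
    constructor
    · rintro ⟨_, _, h⟩; exact h
    · intro h; exact ⟨hq, hq, h⟩
  have hSm' : ∀ q (hq : q ∈ P), q ∈ S' ↔ x ⟨q, hq⟩ = 0 := by
    intro q hq
    rw [hS', Finset.mem_filter]
    constructor
    · rintro ⟨_, h⟩
      rcases hz2 (x ⟨q, hq⟩) with h0 | h0
      · exact h0
      · exact absurd ⟨hq, h0⟩ h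
    · intro h
      refine ⟨hq, ?_⟩
      rintro ⟨_, h'⟩
      rw [h] at h'
      exact absurd h' (by decide)
  have hmul : (∏ q ∈ S, q) * ∏ q ∈ S', q = D := by
    rw [hS, hS', Finset.prod_filter_mul_prod_filter_not, hprod]
  have hmem : ∀ (U : Finset ℕ), U ⊆ P → ∀ p : ℕ, p.Prime → p ∣ ∏ q ∈ U, q → p ∈ U := by
    intro U hU p hp hpd
    obtain ⟨q, hq, hpq⟩ := (Prime.dvd_finsetProd_iff hp.prime _).mp hpd
    rwa [(Nat.prime_dvd_prime_iff_eq hp (hPp q (hU hq))).mp hpq]
  have hSP : S ⊆ P := Finset.filter_subset _ _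
  have hSP' : S' ⊆ P := Finset.filter_subset _ _
  refine ⟨∏ q ∈ S, q, ∏ q ∈ S', q, hmul, ?_, ?_, ?_, ?_, ?_⟩
  · intro i hi
    have hiS := hmem S' hSP' i (hPp i i.2) hi
    have hxi := (hSm' i i.2).mp hiS
    apply hform x i S hSP
    intro q hq
    rw [hSm q hq, show x i = 0 from hxi]
    rcases hz2 (x ⟨q, hq⟩) with h0 | h0 <;> simp [h0]
  · intro i hi
    have hiS := hmem S hSP i (hPp i i.2) hi
    have hxi := (hSm i i.2).mp hiS
    apply hform x i S' hSP'
    intro q hq
    rw [hSm' q hq, show x i = 1 from hxi]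
    rcases hz2 (x ⟨q, hq⟩) with h0 | h0 <;> simp [h0]
  · intro e
    have e1 : (∏ q ∈ S, q).primeFactors = S := Nat.primeFactors_prod (fun p hp => hPp p (hSP hp))
    rw [e1]
    have e2 : ∑ j : P, e j * x j = ∑ q ∈ P.attach, (if (q : ℕ) ∈ S then e q else 0) := by
      rw [Finset.univ_eq_attach]
      refine Finset.sum_congr rfl fun j _ => ?_
      rcases hz2 (x j) with h0 | h0
      · have : ¬ (j : ℕ) ∈ S := by
          rw [hSm j j.2]
          intro h
          rw [show x ⟨j, j.2⟩ = x j from rfl, h0] at h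
          exact absurd h (by decide)
        rw [if_neg this, h0, mul_zero]
      · have : (j : ℕ) ∈ S := by
          rw [hSm j j.2]
          exact h0
        rw [if_pos this, h0, mul_one]
    rw [e2, Finset.sum_attach P (fun q => if q ∈ S then e q else 0), ← Finset.sum_filter]
    congr 1
    ext q
    rw [Finset.mem_filter]
    exact ⟨fun h => h.2, fun h => ⟨hSP h, h⟩⟩
  · intro h
    funext ⟨q, hq⟩
    rcases hz2 (x ⟨q, hq⟩) with h0 | h0
    · exact h0
    · exfalso
      have hqS := (hSm q hq).mpr h0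
      have := Finset.dvd_prod_of_mem (fun q : ℕ => q) hqS
      rw [h] at this
      exact (hPp q hq).one_lt.ne' (Nat.dvd_one.mp this)
  · intro h
    funext ⟨q, hq⟩
    rcases hz2 (x ⟨q, hq⟩) with h0 | h0
    · exfalso
      have hqS := (hSm' q hq).mpr h0
      have := Finset.dvd_prod_of_mem (fun q : ℕ => q) hqS
      rw [h] at this
      exact (hPp q hq).one_lt.ne' (Nat.dvd_one.mp this)
    · exact h0

theorem sum_ee_pf {p m : ℕ} (hp : p.Prime) (hm : Squarefree m) (hpm : ¬ p ∣ m) :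
    ∑ q ∈ m.primeFactors, ee p q = ee p m := by
  conv_rhs => rw [← Nat.prod_primeFactors_of_squarefree hm]
  rw [ee_prod hp]
  intro q hq h
  exact hpm (h.trans (Nat.dvd_of_mem_primeFactors hq))

theorem ee_three {n : ℕ} (hn : ¬ 3 ∣ n) : ee 3 n = 0 ↔ n % 3 = 1 := by
  rw [ee_eq_zero]
  have h1 : n % 3 = 1 ∨ n % 3 = 2 := by omega
  have h2 : ((n : ℕ) : ZMod 3) = ((n % 3 : ℕ) : ZMod 3) := by
    rw [ZMod.natCast_mod]
  rw [h2]
  rcases h1 with h | h <;> rw [h]
  · simp
  · constructor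
    · intro h3
      exfalso
      revert h3
      rw [isSquare_iff_exists_sq]
      decide
    · intro h3; omega

theorem ee_five {n : ℕ} (hn : ¬ 5 ∣ n) : ee 5 n = 0 ↔ (n % 5 = 1 ∨ n % 5 = 4) := by
  rw [ee_eq_zero]
  have h1 : n % 5 = 1 ∨ n % 5 = 2 ∨ n % 5 = 3 ∨ n % 5 = 4 := by omega
  have h2 : ((n : ℕ) : ZMod 5) = ((n % 5 : ℕ) : ZMod 5) := by
    rw [ZMod.natCast_mod]
  rw [h2]
  rcases h1 with h | h | h | h <;> rw [h] <;> rw [isSquare_iff_exists_sq] <;> decide

theorem sq_t {p t a : ℕ} (hp : p.Prime) (ht : ¬ p ∣ t) (ha : ¬ p ∣ a)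
    (h : ee p a + ee p t = 0) : IsSquare ((t * a : ℕ) : ZMod p) := by
  apply ee_eq_zero.mp
  rw [ee_mul hp ht ha, add_comm]; exact h

/-- the right kernel -/
theorem kerH {d : ℕ} {P : Finset ℕ} (hP : P = d.primeFactors) (hsf : Squarefree d)
    (hd2 : d % 2 = 1) (h3 : d % 3 = 1) (h5 : d % 5 = 1 ∨ d % 5 = 4)
    (H : ∀ t a b : ℕ, (t = 1 ∨ t = 5 ∨ (d % 4 = 1 ∧ (t = 2 ∨ t = 10))) → a * b = d →
      (t * a) % 3 = 1 → (∀ q : ℕ, q.Prime → q ∣ b → IsSquare ((t * a : ℕ) : ZMod q)) →
      (∀ q : ℕ, q.Prime → q ∣ a → IsSquare ((t * b : ℕ) : ZMod q)) → t = 1 ∧ (a = 1 ∨ b = 1))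
    (x : P → ZMod 2) (τ ρ : ZMod 2) (hρ : ρ = 0 ∨ d % 4 = 1)
    (hrow : ∀ i : P, (RM P).mulVec x i + ee i 5 * τ + ee i 2 * ρ = 0)
    (h3row : ρ + τ + ∑ j : P, ee 3 j * x j = 0) : τ = 0 ∧ ρ = 0 ∧ (x = 0 ∨ x = 1) := by
  have hPp : ∀ p ∈ P, p.Prime := fun p hp => Nat.prime_of_mem_primeFactors (hP ▸ hp)
  have hPd : ∀ p ∈ P, p ∣ d := fun p hp => Nat.dvd_of_mem_primeFactors (hP ▸ hp)
  have hd0 : d ≠ 0 := hsf.ne_zero
  obtain ⟨a, c, hac, g1, g2, g3, g4, g5⟩ := split_vec hP hsf x
  have had : a ∣ d := ⟨c, hac.symm⟩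
  have hasf : Squarefree a := hsf.squarefree_of_dvd had
  have hcopr : Nat.Coprime a c := by
    rw [← hac] at hsf
    exact Nat.coprime_of_squarefree_mul hsf
  have h3a : ¬ 3 ∣ a := fun h => by
    have := h.trans had
    omega
  have hz2 : ∀ s : ZMod 2, s = 0 ∨ s = 1 := by decide
  -- primes of `d` do not divide 2, 5
  have hp2 : ∀ p ∈ P, ¬ p ∣ 2 := by
    intro p hp h
    have h6 := (Nat.prime_dvd_prime_iff_eq (hPp p hp) Nat.prime_two).mp h
    have := hPd p hp
    rw [h6] at this; omega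
  have hp5 : ∀ p ∈ P, ¬ p ∣ 5 := by
    intro p hp h
    have h6 := (Nat.prime_dvd_prime_iff_eq (hPp p hp) (by norm_num : Nat.Prime 5)).mp h
    have := hPd p hp
    rw [h6] at this; omega
  have e35 : ee 3 5 = 1 := by
    rcases hz2 (ee 3 5) with h | h
    · rw [ee_three (by norm_num)] at h; omega
    · exact h
  have e32 : ee 3 2 = 1 := by
    rcases hz2 (ee 3 2) with h | h
    · rw [ee_three (by norm_num)] at h; omega
    · exact h
  have one1 : (1 : ZMod 2) + 1 = 0 := by decide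
  obtain ⟨t, ht, ht3, hte3, htp, hte, hts⟩ : ∃ t : ℕ,
      (t = 1 ∨ t = 5 ∨ (d % 4 = 1 ∧ (t = 2 ∨ t = 10))) ∧ ¬ 3 ∣ t ∧ ee 3 t = τ + ρ ∧
      (∀ p ∈ P, ¬ p ∣ t) ∧ (∀ p ∈ P, ee p t = ee p 5 * τ + ee p 2 * ρ) ∧
      (t = 1 → τ = 0 ∧ ρ = 0) := by
    rcases hz2 ρ with hr | hr <;> rcases hz2 τ with ht | ht
    · exact ⟨1, Or.inl rfl, by norm_num, by rw [ee_one, ht, hr, add_zero],
        fun p hp h => (hPp p hp).one_lt.ne' (Nat.dvd_one.mp h),
        fun p hp => by rw [ee_one, ht, hr]; simp, fun _ => ⟨ht, hr⟩⟩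
    · exact ⟨5, Or.inr (Or.inl rfl), by norm_num, by rw [e35, ht, hr, add_zero], hp5,
        fun p hp => by rw [ht, hr]; simp, fun h => by omega⟩
    · have hd4 : d % 4 = 1 := by
        rcases hρ with h | h
        · rw [hr] at h; exact absurd h (by decide)
        · exact h
      exact ⟨2, Or.inr (Or.inr ⟨hd4, Or.inl rfl⟩), by norm_num, by rw [e32, ht, hr, zero_add], hp2,
        fun p hp => by rw [ht, hr]; simp, fun h => by omega⟩
    · have hd4 : d % 4 = 1 := by
        rcases hρ with h | h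
        · rw [hr] at h; exact absurd h (by decide)
        · exact h
      refine ⟨10, Or.inr (Or.inr ⟨hd4, Or.inr rfl⟩), by norm_num, ?_, ?_, ?_, fun h => by omega⟩
      · have : (10 : ℕ) = 5 * 2 := by norm_num
        rw [this, ee_mul Nat.prime_three (by norm_num) (by norm_num), e35, e32, ht, hr]
      · intro p hp h
        have h6 : p ∣ 5 * 2 := by norm_num; exact h
        rcases (hPp p hp).dvd_mul.mp h6 with h7 | h7
        · exact hp5 p hp h7
        · exact hp2 p hp h7
      · intro p hp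
        have : (10 : ℕ) = 5 * 2 := by norm_num
        rw [this, ee_mul (hPp p hp) (hp5 p hp) (hp2 p hp), ht, hr]; simp
  have hta : (t * a) % 3 = 1 := by
    rw [← ee_three (fun h => by
      rcases Nat.prime_three.dvd_mul.mp h with h6 | h6
      · exact ht3 h6
      · exact h3a h6), ee_mul Nat.prime_three ht3 h3a, hte3, ← sum_ee_pf Nat.prime_three hasf h3a,
      ← g3 (ee 3)]
    rw [add_comm τ ρ]; exact h3row
  have hmemP : ∀ p : ℕ, p.Prime → p ∣ d → p ∈ P := fun p hp hpd =>
    hP ▸ Nat.mem_primeFactors.mpr ⟨hp, hpd, hd0⟩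
  obtain ⟨ht1, hor⟩ := H t a c ht hac hta
    (by
      intro p hp hpc
      have hpP := hmemP p hp (hpc.trans ⟨a, by rw [mul_comm]; exact hac.symm⟩)
      have hpa : ¬ p ∣ a := fun h =>
        hp.one_lt.ne' (Nat.dvd_one.mp (hcopr ▸ Nat.dvd_gcd h hpc))
      apply sq_t hp (htp p hpP) hpa
      have h6 := hrow ⟨p, hpP⟩
      rw [g1 ⟨p, hpP⟩ hpc] at h6
      rw [hte p hpP, ← add_assoc]
      exact h6)
    (by
      intro p hp hpa
      have hpP := hmemP p hp (hpa.trans had)
      have hpc : ¬ p ∣ c := fun h =>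
        hp.one_lt.ne' (Nat.dvd_one.mp (hcopr ▸ Nat.dvd_gcd hpa h))
      apply sq_t hp (htp p hpP) hpc
      have h6 := hrow ⟨p, hpP⟩
      rw [g2 ⟨p, hpP⟩ hpa] at h6
      rw [hte p hpP, ← add_assoc]
      exact h6)
  obtain ⟨hτ, hρ0⟩ := hts ht1
  refine ⟨hτ, hρ0, ?_⟩
  rcases hor with h | h
  · exact Or.inl (g4 h)
  · exact Or.inr (g5 h)

/-- the transposed matrix on the indicator of the primes of `m` -/
theorem RMT_ind {d : ℕ} {P : Finset ℕ} (hP : P = d.primeFactors) (hsf : Squarefree d)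
    (hd2 : d % 2 = 1) {m M : ℕ} (hmM : m * M = d) (i : P) :
    ((i : ℕ) ∣ m → (RM P).transpose.mulVec (fun j : P => if (j : ℕ) ∣ m then (1 : ZMod 2) else 0) i
      = ee i M + (if (i : ℕ) % 4 = 3 then
          (((M.primeFactors.filter (fun q => q % 4 = 3)).card : ℕ) : ZMod 2) else 0)
        + (if d % 4 = 1 then (if (i : ℕ) % 4 = 3 then 1 else 0) else 0)) ∧
    ((i : ℕ) ∣ M → (RM P).transpose.mulVec (fun j : P => if (j : ℕ) ∣ m then (1 : ZMod 2) else 0) i
      = ee i m + (if (i : ℕ) % 4 = 3 then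
          (((m.primeFactors.filter (fun q => q % 4 = 3)).card : ℕ) : ZMod 2) else 0)) := by
  classical
  have hd0 : d ≠ 0 := hsf.ne_zero
  have hmd : m ∣ d := ⟨M, hmM.symm⟩
  have hMd : M ∣ d := ⟨m, by rw [mul_comm]; exact hmM.symm⟩
  have hmsf : Squarefree m := hsf.squarefree_of_dvd hmd
  have hMsf : Squarefree M := hsf.squarefree_of_dvd hMd
  have hm0 : m ≠ 0 := hmsf.ne_zero
  have hM0 : M ≠ 0 := hMsf.ne_zero
  have hcopr : Nat.Coprime m M := by
    rw [← hmM] at hsf
    exact Nat.coprime_of_squarefree_mul hsf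
  have hPp : ∀ p ∈ P, p.Prime := fun p hp => Nat.prime_of_mem_primeFactors (hP ▸ hp)
  have hPd : ∀ p ∈ P, p ∣ d := fun p hp => Nat.dvd_of_mem_primeFactors (hP ▸ hp)
  have hP2 : ∀ p ∈ P, p % 2 = 1 := by
    intro p hp
    have hpd := hPd p hp
    rcases (hPp p hp).eq_two_or_odd with h | h
    · rw [h] at hpd; omega
    · exact h
  have hcop : ∀ p ∈ P, ∀ q ∈ P, p ≠ q → ¬ p ∣ q := by
    intro p hp q hq hpq h
    exact hpq ((Nat.prime_dvd_prime_iff_eq (hPp p hp) (hPp q hq)).mp h)
  have hT : ∀ (x : P → ZMod 2) (i : P), (RM P).transpose.mulVec x i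
      = ∑ j ∈ Finset.univ.filter (fun j => x j ≠ x i), (ee i j + rc i j)
        + (if d % 4 = 1 then (if (i : ℕ) % 4 = 3 then x i else 0) else 0) := by
    intro x i
    by_cases h41 : d % 4 = 1
    · rw [if_pos h41]
      exact RMT_mulVec_even hPp hP2 (by rw [hP]; exact filter_card_even hsf h41) x i
    · rw [if_neg h41, add_zero]
      exact RMT_mulVec' hPp hP2 (by rw [hP]; exact filter_card_odd hsf (by omega)) x i
  have hform : ∀ (x : P → ZMod 2) (i : P) (S : Finset ℕ), S ⊆ P →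
      (∀ q (hq : q ∈ P), q ∈ S ↔ x ⟨q, hq⟩ ≠ x i) →
      (RM P).transpose.mulVec x i = ee i (∏ q ∈ S, q)
        + (if (i : ℕ) % 4 = 3 then (((S.filter (fun q => q % 4 = 3)).card : ℕ) : ZMod 2)
            else 0) + (if d % 4 = 1 then (if (i : ℕ) % 4 = 3 then x i else 0) else 0) := by
    intro x i S hSP hS
    rw [hT]
    obtain ⟨S', h5, h6, h7⟩ := prod_filter_coe P (fun j => x j ≠ x i)
    rw [h7 (fun q => ee i q + rc i q)]
    have : S' = S := by
      ext q
      constructor
      · intro hq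
        exact (hS q (h5 hq)).mpr ((h6 q (h5 hq)).mp hq)
      · intro hq
        exact (h6 q (hSP hq)).mpr ((hS q (hSP hq)).mp hq)
    rw [this, ee_prod (hPp i i.2), Finset.sum_add_distrib, sum_rc]
    intro q hq
    apply hcop i i.2 q (hSP hq)
    intro h
    have := (hS q (hSP hq)).mp hq
    apply this
    congr 1
    exact Subtype.ext h.symm
  constructor
  · intro hi
    rw [hform _ i M.primeFactors (hP ▸ Nat.primeFactors_mono hMd hd0),
      Nat.prod_primeFactors_of_squarefree hMsf]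
    · simp only [hi, if_true]
    · intro q hq
      simp only [hi, if_true]
      have hqp := hPp q hq
      constructor
      · intro hqc
        have hqc' := Nat.dvd_of_mem_primeFactors hqc
        have : ¬ q ∣ m := fun h => hqp.one_lt.ne' (Nat.dvd_one.mp (hcopr ▸ Nat.dvd_gcd h hqc'))
        simp [this]
      · intro h
        have hna : ¬ q ∣ m := by
          intro h'; simp [h'] at h
        have hqD := hPd q hq
        rw [← hmM] at hqD
        rcases (Nat.Prime.dvd_mul hqp).mp hqD with h' | h'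
        · exact absurd h' hna
        · exact Nat.mem_primeFactors.mpr ⟨hqp, h', hM0⟩
  · intro hiM
    have hi : ¬ (i : ℕ) ∣ m := fun h =>
      (hPp i i.2).one_lt.ne' (Nat.dvd_one.mp (hcopr ▸ Nat.dvd_gcd h hiM))
    rw [hform _ i m.primeFactors (hP ▸ Nat.primeFactors_mono hmd hd0),
      Nat.prod_primeFactors_of_squarefree hmsf]
    · simp only [hi, if_false, ite_self, add_zero]
    · intro q hq
      simp only [hi, if_false]
      have hqp := hPp q hq
      constructor
      · intro hqa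
        simp [Nat.dvd_of_mem_primeFactors hqa]
      · intro h
        have hna : q ∣ m := by
          by_contra h'; simp [h'] at h
        exact Nat.mem_primeFactors.mpr ⟨hqp, hna, hm0⟩

/-- signs -/
theorem sign_gen {a : ℤ} {m : ℕ} (ham : a.natAbs = m) (hm : Squarefree m)
    (ha : a % 4 = 1 ∨ a % 4 = 3) : ∃ k : ℕ,
      a = (-1) ^ ((m.primeFactors.filter (fun q => q % 4 = 3)).card + k) * m ∧
      ((a % 4 = 1 ∧ k = 0) ∨ (a % 4 = 3 ∧ k = 1)) := by
  rcases ha with h | h
  · exact ⟨0, by rw [add_zero]; exact sign_eq' ham hm h, Or.inl ⟨h, rfl⟩⟩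
  · refine ⟨1, ?_, Or.inr ⟨h, rfl⟩⟩
    have := sign_eq' (a := -a) (by rw [Int.natAbs_neg]; exact ham) hm (by omega)
    rw [pow_succ]
    linear_combination -this

/-- the rows of the transposed matrix -/
theorem left_row {d : ℕ} {P : Finset ℕ} (hP : P = d.primeFactors) (hsf : Squarefree d)
    (hd2 : d % 2 = 1) (hd3 : ¬ 3 ∣ d) {s : ℕ} (hs : s = 1 ∨ s = 3) {b c : ℤ} (hbc : b * c = -d)
    (hb4 : (s * b) % 4 = 1)
    (s1 : ∀ q : ℕ, q.Prime → (q : ℤ) ∣ c → IsSquare ((s * b : ℤ) : ZMod q))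
    (s2 : ∀ q : ℕ, q.Prime → (q : ℤ) ∣ b → IsSquare ((s * c : ℤ) : ZMod q)) (i : P) :
    (RM P).transpose.mulVec (fun j : P => if (j : ℕ) ∣ b.natAbs then (1 : ZMod 2) else 0) i
      + ee 3 i * (if s = 3 then 1 else 0) = 0 := by
  obtain ⟨m, hm⟩ : ∃ m, b.natAbs = m := ⟨_, rfl⟩
  obtain ⟨M, hM⟩ : ∃ M, c.natAbs = M := ⟨_, rfl⟩
  have hmM : m * M = d := by
    rw [← hm, ← hM, ← Int.natAbs_mul, hbc]; simp
  have hmd : m ∣ d := ⟨M, hmM.symm⟩
  have hMd : M ∣ d := ⟨m, by rw [mul_comm]; exact hmM.symm⟩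
  have hmsf : Squarefree m := hsf.squarefree_of_dvd hmd
  have hMsf : Squarefree M := hsf.squarefree_of_dvd hMd
  have hPp : ∀ p ∈ P, p.Prime := fun p hp => Nat.prime_of_mem_primeFactors (hP ▸ hp)
  have hPd : ∀ p ∈ P, p ∣ d := fun p hp => Nat.dvd_of_mem_primeFactors (hP ▸ hp)
  have hcopr : Nat.Coprime m M := by
    rw [← hmM] at hsf
    exact Nat.coprime_of_squarefree_mul hsf
  have hip := hPp i i.2
  have hi2 : (i : ℕ) % 2 = 1 := by
    have hpd := hPd i i.2
    rcases hip.eq_two_or_odd with h | h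
    · rw [h] at hpd; omega
    · exact h
  have hi3 : (i : ℕ) ≠ 3 := fun h => hd3 (h ▸ hPd i i.2)
  have his : ¬ (i : ℕ) ∣ s := by
    rcases hs with h | h
    · rw [h]; exact fun h' => hip.one_lt.ne' (Nat.dvd_one.mp h')
    · rw [h]; exact fun h' => hi3 ((Nat.prime_dvd_prime_iff_eq hip Nat.prime_three).mp h')
  have one1 : (1 : ZMod 2) + 1 = 0 := by decide
  have hes : ee i s = (if s = 3 then 1 else 0) * (ee 3 i + if (i : ℕ) % 4 = 3 then 1 else 0) := by
    rcases hs with h | h
    · rw [h, ee_one]; simp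
    · have h6 := ee_rec' hip Nat.prime_three hi2 (by norm_num) hi3
      rw [h, if_pos rfl, one_mul]
      have h7 : (if (i : ℕ) % 4 = 3 ∧ 3 % 4 = 3 then (1 : ZMod 2) else 0)
          = if (i : ℕ) % 4 = 3 then 1 else 0 := by simp
      rw [h7] at h6
      rw [← h6, add_comm (ee i 3), ← add_assoc]
      have : ∀ t : ZMod 2, t + t = 0 := by decide
      rw [this, zero_add]
  have hb : b % 4 = 1 ∨ b % 4 = 3 := by
    rcases hs with h | h <;> rw [h] at hb4 <;> push_cast at hb4 <;> omega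
  have hc : (d % 4 = 3 ∧ c % 4 = b % 4) ∨ (d % 4 = 1 ∧ (c % 4 + b % 4 = 4)) := by
    have h5 : (b * c) % 4 = (-d) % 4 := by rw [hbc]
    have hcc : c % 4 = 0 ∨ c % 4 = 1 ∨ c % 4 = 2 ∨ c % 4 = 3 := by omega
    rw [Int.mul_emod] at h5
    have hd4 : d % 4 = 1 ∨ d % 4 = 3 := by omega
    rcases hb with hb | hb <;> rcases hcc with hcc | hcc | hcc | hcc <;> rw [hb, hcc] at h5 <;>
      rcases hd4 with hd4 | hd4 <;> omega
  obtain ⟨kb, hkb, hkb'⟩ := sign_gen hm hmsf hb
  obtain ⟨kc, hkc, hkc'⟩ := sign_gen hM hMsf (by rcases hc with h | h <;> omega)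
  have hi : (i : ℕ) ∣ m ∨ (i : ℕ) ∣ M := by
    have hqD := hPd i i.2
    rw [← hmM] at hqD
    exact (Nat.Prime.dvd_mul hip).mp hqD
  rw [hm]
  obtain ⟨r1, r2⟩ := RMT_ind hP hsf hd2 hmM i
  rcases hi with hi | hi
  · have hiM : ¬ (i : ℕ) ∣ M := fun h =>
      hip.one_lt.ne' (Nat.dvd_one.mp (hcopr ▸ Nat.dvd_gcd hi h))
    rw [r1 hi]
    have h6 := sq_neg_pow' hip (m := s * M) (fun h => by
        rcases hip.dvd_mul.mp h with h7 | h7
        · exact his h7
        · exact hiM h7) ((M.primeFactors.filter (fun q => q % 4 = 3)).card + kc) (by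
      have h7 : ((-1 : ℤ) ^ ((M.primeFactors.filter (fun q => q % 4 = 3)).card + kc)
          * ((s * M : ℕ) : ℤ) : ℤ) = s * c := by
        conv_rhs => rw [hkc]
        push_cast; ring
      rw [h7]
      apply s2 i hip
      rw [← Int.natAbs_dvd_natAbs, hm]; simpa using hi)
    rw [ee_mul hip his hiM, hes] at h6
    have hkcc : ((kc : ℕ) : ZMod 2) = (if s = 3 then 1 else 0) + (if d % 4 = 1 then 1 else 0) := by
      rcases hs with hs | hs <;> rw [hs] at hb4 <;> push_cast at hb4 <;>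
        rcases hc with ⟨hd', hc⟩ | ⟨hd', hc⟩ <;> rcases hkc' with ⟨hk1, hk2⟩ | ⟨hk1, hk2⟩ <;>
        first
          | (exfalso; omega)
          | (rw [hk2, hs, hd']; decide)
    have h20 : (2 : ZMod 2) = 0 := by decide
    by_cases h43 : (i : ℕ) % 4 = 3
    · simp only [h43, if_true] at h6 ⊢
      rw [Nat.cast_add, hkcc] at h6
      linear_combination h6 - (if s = 3 then (1 : ZMod 2) else 0) * h20
    · simp only [h43, if_false, ite_self, add_zero] at h6 ⊢
      linear_combination h6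
  · have him : ¬ (i : ℕ) ∣ m := fun h =>
      hip.one_lt.ne' (Nat.dvd_one.mp (hcopr ▸ Nat.dvd_gcd h hi))
    rw [r2 hi]
    have h6 := sq_neg_pow' hip (m := s * m) (fun h => by
        rcases hip.dvd_mul.mp h with h7 | h7
        · exact his h7
        · exact him h7) ((m.primeFactors.filter (fun q => q % 4 = 3)).card + kb) (by
      have h7 : ((-1 : ℤ) ^ ((m.primeFactors.filter (fun q => q % 4 = 3)).card + kb)
          * ((s * m : ℕ) : ℤ) : ℤ) = s * b := by
        conv_rhs => rw [hkb]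
        push_cast; ring
      rw [h7]
      apply s1 i hip
      rw [← Int.natAbs_dvd_natAbs, hM]; simpa using hi)
    rw [ee_mul hip his him, hes] at h6
    have hkbb : ((kb : ℕ) : ZMod 2) = (if s = 3 then 1 else 0) := by
      rcases hs with hs | hs <;> rw [hs] at hb4 <;> push_cast at hb4 <;>
        rcases hkb' with ⟨hk1, hk2⟩ | ⟨hk1, hk2⟩ <;>
        first
          | (exfalso; omega)
          | (rw [hk2, hs]; decide)
    have h20 : (2 : ZMod 2) = 0 := by decide
    by_cases h43 : (i : ℕ) % 4 = 3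
    · simp only [h43, if_true] at h6 ⊢
      rw [Nat.cast_add, hkbb] at h6
      linear_combination h6 - (if s = 3 then (1 : ZMod 2) else 0) * h20
    · simp only [h43, if_false, add_zero] at h6 ⊢
      linear_combination h6

/-- the column of `5` -/
theorem left_five {d : ℕ} {P : Finset ℕ} (hP : P = d.primeFactors) (hsf : Squarefree d)
    (hd2 : d % 2 = 1) (h5 : d % 5 = 1 ∨ d % 5 = 4) {s : ℕ} (hs : s = 1 ∨ s = 3) {b : ℤ}
    (hbd : b.natAbs ∣ d) (c5 : (s * b) % 5 = 1 ∨ (s * b) % 5 = 4) :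
    ∑ i : P, ee i 5 * (if (i : ℕ) ∣ b.natAbs then (1 : ZMod 2) else 0)
      + (if s = 3 then 1 else 0) = 0 := by
  obtain ⟨m, hm⟩ : ∃ m, b.natAbs = m := ⟨_, rfl⟩
  rw [hm] at hbd ⊢
  have hd0 : d ≠ 0 := hsf.ne_zero
  have hmsf : Squarefree m := hsf.squarefree_of_dvd hbd
  have hm0 : m ≠ 0 := hmsf.ne_zero
  have two : ∀ t : ZMod 2, t + t = 0 := by decide
  have h5m : ¬ 5 ∣ m := fun h => by
    have := h.trans hbd
    omega
  have e1 : ∑ i : P, ee i 5 * (if (i : ℕ) ∣ m then (1 : ZMod 2) else 0)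
      = ∑ q ∈ P, (if q ∣ m then ee q 5 else 0) := by
    rw [← Finset.sum_coe_sort P (fun q => if q ∣ m then ee q 5 else 0)]
    refine Finset.sum_congr rfl fun j _ => ?_
    split_ifs <;> simp
  have e2 : P.filter (fun q => q ∣ m) = m.primeFactors := by
    ext q
    rw [Finset.mem_filter, hP]
    constructor
    · rintro ⟨h5, h6⟩
      exact Nat.mem_primeFactors.mpr ⟨Nat.prime_of_mem_primeFactors h5, h6, hm0⟩
    · intro h5
      exact ⟨Nat.primeFactors_mono hbd hd0 h5, Nat.dvd_of_mem_primeFactors h5⟩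
  have e3 : ∑ q ∈ m.primeFactors, ee q 5 = ∑ q ∈ m.primeFactors, ee 5 q := by
    refine Finset.sum_congr rfl fun q hq => ?_
    have hqp := Nat.prime_of_mem_primeFactors hq
    have hqd := (Nat.dvd_of_mem_primeFactors hq).trans hbd
    have hq2 : q % 2 = 1 := by
      rcases hqp.eq_two_or_odd with h | h
      · rw [h] at hqd; omega
      · exact h
    have hq5 : q ≠ 5 := fun h => h5m (h ▸ Nat.dvd_of_mem_primeFactors hq)
    have h6 := ee_rec' hqp (by norm_num : Nat.Prime 5) hq2 (by norm_num) hq5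
    rw [if_neg (by norm_num)] at h6
    have h20 := two (ee 5 q)
    linear_combination h6 - h20
  rw [e1, ← Finset.sum_filter, e2, e3, sum_ee_pf (by norm_num) hmsf h5m]
  have h5sm : ¬ 5 ∣ s * m := by
    intro h
    rcases (by norm_num : Nat.Prime 5).dvd_mul.mp h with h7 | h7
    · rcases hs with h8 | h8 <;> rw [h8] at h7 <;> omega
    · exact h5m h7
  have h5s : ¬ 5 ∣ s := fun h => h5sm (h.mul_right m)
  have hsm : (s * m) % 5 = 1 ∨ (s * m) % 5 = 4 := by
    rcases hs with h8 | h8 <;> rw [h8] at c5 ⊢ <;> push_cast at c5 <;> omega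
  have h9 := (ee_five h5sm).mpr hsm
  rw [ee_mul (by norm_num) h5s h5m] at h9
  have h10 : ee 5 s = if s = 3 then 1 else 0 := by
    rcases hs with h8 | h8
    · rw [h8, ee_one]; rfl
    · rw [h8, if_pos rfl]
      have hz2 : ∀ s : ZMod 2, s = 0 ∨ s = 1 := by decide
      rcases hz2 (ee 5 3) with h | h
      · rw [ee_five (by norm_num)] at h; omega
      · exact h
  rw [← h10, add_comm]
  exact h9

/-- the column of `2` -/
theorem left_two {d : ℕ} {P : Finset ℕ} (hP : P = d.primeFactors) (hsf : Squarefree d)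
    (hd2 : d % 2 = 1) {s : ℕ} (hs : s = 1 ∨ s = 3) {b : ℤ}
    (hbd : b.natAbs ∣ d) (c8 : (s * b) % 8 = 1) :
    ∑ i : P, ee i 2 * (if (i : ℕ) ∣ b.natAbs then (1 : ZMod 2) else 0)
      + (if s = 3 then 1 else 0) = 0 := by
  obtain ⟨m, hm⟩ : ∃ m, b.natAbs = m := ⟨_, rfl⟩
  rw [hm] at hbd ⊢
  have hd0 : d ≠ 0 := hsf.ne_zero
  have hmsf : Squarefree m := hsf.squarefree_of_dvd hbd
  have hm0 : m ≠ 0 := hmsf.ne_zero
  have e1 : ∑ i : P, ee i 2 * (if (i : ℕ) ∣ m then (1 : ZMod 2) else 0)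
      = ∑ q ∈ P, (if q ∣ m then ee q 2 else 0) := by
    rw [← Finset.sum_coe_sort P (fun q => if q ∣ m then ee q 2 else 0)]
    refine Finset.sum_congr rfl fun j _ => ?_
    split_ifs <;> simp
  have e2 : P.filter (fun q => q ∣ m) = m.primeFactors := by
    ext q
    rw [Finset.mem_filter, hP]
    constructor
    · rintro ⟨h5, h6⟩
      exact Nat.mem_primeFactors.mpr ⟨Nat.prime_of_mem_primeFactors h5, h6, hm0⟩
    · intro h5
      exact ⟨Nat.primeFactors_mono hbd hd0 h5, Nat.dvd_of_mem_primeFactors h5⟩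
  rw [e1, ← Finset.sum_filter, e2, sum_ee_two, Nat.prod_primeFactors_of_squarefree hmsf]
  · rcases hs with h8 | h8 <;> rw [h8] at c8 ⊢ <;> push_cast at c8
    · rw [if_pos (by omega)]; decide
    · rw [if_neg (by omega)]; decide
  · intro q hq
    have hqp := Nat.prime_of_mem_primeFactors hq
    have hqd := (Nat.dvd_of_mem_primeFactors hq).trans hbd
    refine ⟨hqp, ?_⟩
    rcases hqp.eq_two_or_odd with h | h
    · rw [h] at hqd; omega
    · exact h

/-- the square matrix, `d = 3` mod `4` -/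
noncomputable def MA (P : Finset ℕ) : Matrix (Option P) (Option P) (ZMod 2)
  | some i, some j => RM P i j
  | some i, none => ee i 5
  | none, some j => ee 3 j
  | none, none => 1

/-- the rectangular matrix, `d = 1` mod `4` -/
noncomputable def MB (P : Finset ℕ) : Matrix (Option P) (Option (Option P)) (ZMod 2)
  | some i, some (some j) => RM P i j
  | some i, some none => ee i 5
  | some i, none => ee i 2
  | none, some (some j) => ee 3 j
  | none, some none => 1
  | none, none => 1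

theorem T5_A {d : ℕ} (hsf : Squarefree d) (hd4 : d % 4 = 3)
    (h3 : d % 3 = 1) (h5 : d % 5 = 1 ∨ d % 5 = 4)
    (H : ∀ t a b : ℕ, (t = 1 ∨ t = 5 ∨ (d % 4 = 1 ∧ (t = 2 ∨ t = 10))) → a * b = d →
      (t * a) % 3 = 1 → (∀ q : ℕ, q.Prime → q ∣ b → IsSquare ((t * a : ℕ) : ZMod q)) →
      (∀ q : ℕ, q.Prime → q ∣ a → IsSquare ((t * b : ℕ) : ZMod q)) → t = 1 ∧ (a = 1 ∨ b = 1))
    {s : ℕ} (hs : s = 1 ∨ s = 3) {b c : ℤ} (hbc : b * c = -d)
    (hb4 : (s * b) % 4 = 1) (c5 : (s * b) % 5 = 1 ∨ (s * b) % 5 = 4)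
    (s1 : ∀ q : ℕ, q.Prime → (q : ℤ) ∣ c → IsSquare ((s * b : ℤ) : ZMod q))
    (s2 : ∀ q : ℕ, q.Prime → (q : ℤ) ∣ b → IsSquare ((s * c : ℤ) : ZMod q)) :
    s = 1 ∧ (b = 1 ∨ c = 1) := by
  classical
  have hd2 : d % 2 = 1 := by omega
  have hd3 : ¬ 3 ∣ d := by omega
  have hd0 : d ≠ 0 := hsf.ne_zero
  obtain ⟨P, hP⟩ : ∃ P : Finset ℕ, P = d.primeFactors := ⟨_, rfl⟩
  have hPp : ∀ p ∈ P, p.Prime := fun p hp => Nat.prime_of_mem_primeFactors (hP ▸ hp)
  have hPd : ∀ p ∈ P, p ∣ d := fun p hp => Nat.dvd_of_mem_primeFactors (hP ▸ hp)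
  have hP2 : ∀ p ∈ P, p % 2 = 1 := by
    intro p hp
    have hpd := hPd p hp
    rcases (hPp p hp).eq_two_or_odd with h | h
    · rw [h] at hpd; omega
    · exact h
  have hodd : Odd (P.filter (fun q => q % 4 = 3)).card := by
    rw [hP]; exact filter_card_odd hsf hd4
  obtain ⟨m, hm⟩ : ∃ m, b.natAbs = m := ⟨_, rfl⟩
  obtain ⟨M, hM⟩ : ∃ M, c.natAbs = M := ⟨_, rfl⟩
  have hmM : m * M = d := by
    rw [← hm, ← hM, ← Int.natAbs_mul, hbc]; simp
  have hmd : m ∣ d := ⟨M, hmM.symm⟩
  have hbd : b.natAbs ∣ d := by rw [hm]; exact hmd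
  have hv : (fun o : Option P => o.elim (0 : ZMod 2) (fun _ => 1)) ≠ 0 := by
    have := hodd.pos
    rw [Finset.card_pos] at this
    obtain ⟨q, hq⟩ := this
    intro h
    have := congrFun h (some ⟨q, (Finset.mem_filter.mp hq).1⟩)
    simp at this
  have hfin := ker_T_sq (MA P) (fun o : Option P => o.elim (0 : ZMod 2) (fun _ => 1))
    (fun o : Option P => o.elim (0 : ZMod 2) (fun _ => 1)) ?_ hv ?_
    (fun o : Option P => o.elim (if s = 3 then (1 : ZMod 2) else 0)
      (fun j : P => if (j : ℕ) ∣ b.natAbs then (1 : ZMod 2) else 0)) ?_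
  · rcases hfin with h | h
    · have hs3 : s = 1 := by
        have := congrFun h none
        simp only [Option.elim, Pi.zero_apply] at this
        rcases hs with h8 | h8
        · exact h8
        · rw [h8] at this; exact absurd this (by decide)
      refine ⟨hs3, Or.inl ?_⟩
      have hm1 : m = 1 := by
        by_contra hm1
        obtain ⟨p, hp, hpm⟩ := Nat.exists_prime_and_dvd hm1
        have hpP : p ∈ P := hP ▸ Nat.mem_primeFactors.mpr ⟨hp, hpm.trans hmd, hd0⟩
        have := congrFun h (some ⟨p, hpP⟩)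
        simp [hm, hpm] at this
      rw [hm1] at hm
      rw [hs3] at hb4
      push_cast at hb4
      omega
    · have hs3 : s = 1 := by
        have := congrFun h none
        simp only [Option.elim] at this
        rcases hs with h8 | h8
        · exact h8
        · rw [h8] at this; exact absurd this (by decide)
      refine ⟨hs3, Or.inr ?_⟩
      have hM1 : M = 1 := by
        by_contra hM1
        obtain ⟨p, hp, hpM⟩ := Nat.exists_prime_and_dvd hM1
        have hMd : M ∣ d := ⟨m, by rw [mul_comm]; exact hmM.symm⟩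
        have hcopr : Nat.Coprime m M := by
          rw [← hmM] at hsf
          exact Nat.coprime_of_squarefree_mul hsf
        have hpm : ¬ p ∣ m := fun h' =>
          hp.one_lt.ne' (Nat.dvd_one.mp (hcopr ▸ Nat.dvd_gcd h' hpM))
        have hpP : p ∈ P := hP ▸ Nat.mem_primeFactors.mpr ⟨hp, hpM.trans hMd, hd0⟩
        have := congrFun h (some ⟨p, hpP⟩)
        simp [hm, hpm] at this
      rw [hM1] at hM
      rw [hs3] at hb4
      push_cast at hb4
      rcases Int.natAbs_eq c with h9 | h9 <;> rw [hM] at h9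
      · exact_mod_cast h9
      · exfalso
        rw [h9] at hbc
        push_cast at hbc
        omega
  · intro x hx
    obtain ⟨k1, k2, k3⟩ := kerH hP hsf hd2 h3 h5 H (fun j => x (some j)) (x none) 0 (Or.inl rfl)
      (by
        intro i
        have := congrFun hx (some i)
        simp only [Matrix.mulVec, dotProduct, Fintype.sum_option, MA, Pi.zero_apply] at this
        simp only [Matrix.mulVec, dotProduct, mul_zero, add_zero]
        rw [add_comm]; exact this)
      (by
        have := congrFun hx none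
        simp only [Matrix.mulVec, dotProduct, Fintype.sum_option, MA, Pi.zero_apply, one_mul] at this
        rw [zero_add]; exact this)
    rcases k3 with k3 | k3
    · left
      ext o
      rcases o with _ | j
      · exact k1
      · exact congrFun k3 j
    · right
      ext o
      rcases o with _ | j
      · exact k1
      · exact congrFun k3 j
  · funext o
    rcases o with _ | j
    · have h9 := left_five hP hsf hd2 h5 (s := 1) (Or.inl rfl) (b := (d : ℤ)) (by simp)
        (by push_cast; omega)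
      simp only [Matrix.mulVec, dotProduct, Fintype.sum_option, Matrix.transpose_apply, MA,
        Option.elim, mul_zero, zero_add, mul_one, Pi.zero_apply]
      rw [if_neg (by norm_num), add_zero] at h9
      refine Eq.trans ?_ h9
      refine Finset.sum_congr rfl fun i _ => ?_
      rw [if_pos (by simpa using hPd i i.2), mul_one]
    · have h9 := RMT_mulVec' hPp hP2 hodd 1 j
      simp only [Matrix.mulVec, dotProduct, Fintype.sum_option, Matrix.transpose_apply, MA,
        Option.elim, mul_zero, zero_add, mul_one, Pi.zero_apply]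
      simpa [Matrix.mulVec, dotProduct] using h9
  · funext o
    rcases o with _ | j
    · have h9 := left_five hP hsf hd2 h5 hs hbd c5
      simp only [Matrix.mulVec, dotProduct, Fintype.sum_option, Matrix.transpose_apply, MA,
        Option.elim, one_mul, Pi.zero_apply]
      rw [add_comm]; exact h9
    · have h9 := left_row hP hsf hd2 hd3 hs hbc hb4 s1 s2 j
      simp only [Matrix.mulVec, dotProduct, Matrix.transpose_apply] at h9
      simp only [Matrix.mulVec, dotProduct, Fintype.sum_option, Matrix.transpose_apply, MA,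
        Option.elim, Pi.zero_apply]
      rw [add_comm]; exact h9

theorem T5_B {d : ℕ} (hsf : Squarefree d) (hd4 : d % 4 = 1)
    (h3 : d % 3 = 1) (h5 : d % 5 = 1 ∨ d % 5 = 4)
    (H : ∀ t a b : ℕ, (t = 1 ∨ t = 5 ∨ (d % 4 = 1 ∧ (t = 2 ∨ t = 10))) → a * b = d →
      (t * a) % 3 = 1 → (∀ q : ℕ, q.Prime → q ∣ b → IsSquare ((t * a : ℕ) : ZMod q)) →
      (∀ q : ℕ, q.Prime → q ∣ a → IsSquare ((t * b : ℕ) : ZMod q)) → t = 1 ∧ (a = 1 ∨ b = 1))
    {s : ℕ} (hs : s = 1 ∨ s = 3) {b c : ℤ} (hbc : b * c = -d)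
    (hb8 : (s * b) % 8 = 1) (c5 : (s * b) % 5 = 1 ∨ (s * b) % 5 = 4)
    (s1 : ∀ q : ℕ, q.Prime → (q : ℤ) ∣ c → IsSquare ((s * b : ℤ) : ZMod q))
    (s2 : ∀ q : ℕ, q.Prime → (q : ℤ) ∣ b → IsSquare ((s * c : ℤ) : ZMod q)) :
    s = 1 ∧ b = 1 := by
  classical
  have hd2 : d % 2 = 1 := by omega
  have hd3 : ¬ 3 ∣ d := by omega
  have hd0 : d ≠ 0 := hsf.ne_zero
  have hb4 : (s * b) % 4 = 1 := by omega
  obtain ⟨P, hP⟩ : ∃ P : Finset ℕ, P = d.primeFactors := ⟨_, rfl⟩
  obtain ⟨m, hm⟩ : ∃ m, b.natAbs = m := ⟨_, rfl⟩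
  have hbd : b.natAbs ∣ d := by
    refine ⟨c.natAbs, ?_⟩
    rw [← Int.natAbs_mul, hbc]; simp
  have h := ker_T_rect (by simp) (MB P)
    (fun o : Option (Option P) => o.elim (0 : ZMod 2) (fun o' => o'.elim 0 (fun _ => 1))) ?_
    (fun o : Option P => o.elim (if s = 3 then (1 : ZMod 2) else 0)
      (fun j : P => if (j : ℕ) ∣ b.natAbs then (1 : ZMod 2) else 0)) ?_
  · have hs3 : s = 1 := by
      have := congrFun h none
      simp only [Option.elim, Pi.zero_apply] at this
      rcases hs with h8 | h8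
      · exact h8
      · rw [h8] at this; exact absurd this (by decide)
    refine ⟨hs3, ?_⟩
    have hm1 : m = 1 := by
      by_contra hm1
      obtain ⟨p, hp, hpm⟩ := Nat.exists_prime_and_dvd hm1
      have hpP : p ∈ P := hP ▸ Nat.mem_primeFactors.mpr ⟨hp, (hpm.trans (hm ▸ hbd)), hd0⟩
      have := congrFun h (some ⟨p, hpP⟩)
      simp [hm, hpm] at this
    rw [hm1] at hm
    rw [hs3] at hb4
    push_cast at hb4
    omega
  · intro x hx
    obtain ⟨k1, k2, k3⟩ := kerH hP hsf hd2 h3 h5 H (fun j => x (some (some j))) (x (some none))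
      (x none) (Or.inr hd4)
      (by
        intro i
        have := congrFun hx (some i)
        simp only [Matrix.mulVec, dotProduct, Fintype.sum_option, MB, Pi.zero_apply] at this
        simp only [Matrix.mulVec, dotProduct]
        refine Eq.trans ?_ this
        ring)
      (by
        have := congrFun hx none
        simp only [Matrix.mulVec, dotProduct, Fintype.sum_option, MB, Pi.zero_apply, one_mul] at this
        refine Eq.trans ?_ this
        ring)
    rcases k3 with k3 | k3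
    · left
      ext o
      rcases o with _ | o
      · exact k2
      rcases o with _ | j
      · exact k1
      · exact congrFun k3 j
    · right
      ext o
      rcases o with _ | o
      · exact k2
      rcases o with _ | j
      · exact k1
      · exact congrFun k3 j
  · funext o
    rcases o with _ | o
    · have h9 := left_two hP hsf hd2 hs hbd hb8
      simp only [Matrix.mulVec, dotProduct, Fintype.sum_option, Matrix.transpose_apply, MB,
        Option.elim, one_mul, Pi.zero_apply]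
      rw [add_comm]; exact h9
    rcases o with _ | j
    · have h9 := left_five hP hsf hd2 h5 hs hbd c5
      simp only [Matrix.mulVec, dotProduct, Fintype.sum_option, Matrix.transpose_apply, MB,
        Option.elim, one_mul, Pi.zero_apply]
      rw [add_comm]; exact h9
    · have h9 := left_row hP hsf hd2 hd3 hs hbc hb4 s1 s2 j
      simp only [Matrix.mulVec, dotProduct, Matrix.transpose_apply] at h9
      simp only [Matrix.mulVec, dotProduct, Fintype.sum_option, Matrix.transpose_apply, MB,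
        Option.elim, Pi.zero_apply]
      rw [add_comm]; exact h9

end Vale.P017.H689
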