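import Vale.Agent.P017.H689.T5
import Vale.Agent.P017.H524.Defs

set_option autoImplicit false

namespace Vale.Agent.P017.H689

open Vale.Agent.P017.H524 Vale.P017.H689

/-- **(T5)** for odd `d` -/
theorem T5_odd {d : ℕ} (hsf : Squarefree d) (hd2 : d % 2 = 1) (h3 : d % 3 = 1)
    (h5 : d % 5 = 1 ∨ d % 5 = 4)
    (H : ∀ t a b : ℕ, (t = 1 ∨ t = 5 ∨ (d % 4 = 1 ∧ (t = 2 ∨ t = 10))) → a * b = d →
      (t * a) % 3 = 1 → SqMod ((t : ℤ) * a) b → SqMod ((t : ℤ) * b) a →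
      t = 1 ∧ (a = 1 ∨ b = 1))
    (s b c : ℤ) (hs : s = 1 ∨ s = 3) (hbc : b * c = -d) (c1 : d % 4 = 3 → (s * b) % 4 = 1)
    (c2 : d % 4 ≠ 3 → (s * b) % 8 = 1 ∨ (s * c) % 8 = 1)
    (c5 : (s * b) % 5 = 1 ∨ (s * b) % 5 = 4) (s1 : SqMod (s * b) c) (s2 : SqMod (s * c) b) :
    s = 1 ∧ (b = 1 ∨ c = 1) := by
  have H' : ∀ t a b : ℕ, (t = 1 ∨ t = 5 ∨ (d % 4 = 1 ∧ (t = 2 ∨ t = 10))) → a * b = d →
      (t * a) % 3 = 1 → (∀ q : ℕ, q.Prime → q ∣ b → IsSquare ((t * a : ℕ) : ZMod q)) →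
      (∀ q : ℕ, q.Prime → q ∣ a → IsSquare ((t * b : ℕ) : ZMod q)) →
      t = 1 ∧ (a = 1 ∨ b = 1) := by
    intro t a b ht hab hta g1 g2
    refine H t a b ht hab hta ?_ ?_
    · intro q hq hqb
      have := g1 q hq (Int.natCast_dvd_natCast.mp hqb)
      push_cast at this ⊢
      exact this
    · intro q hq hqb
      have := g2 q hq (Int.natCast_dvd_natCast.mp hqb)
      push_cast at this ⊢
      exact this
  obtain ⟨n, hn, hns⟩ : ∃ n : ℕ, (n = 1 ∨ n = 3) ∧ (n : ℤ) = s := by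
    rcases hs with h | h
    · exact ⟨1, Or.inl rfl, by rw [h]; rfl⟩
    · exact ⟨3, Or.inr rfl, by rw [h]; rfl⟩
  rw [← hns] at c1 c2 c5 s1 s2
  have key : n = 1 ∧ (b = 1 ∨ c = 1) := by
    by_cases hd4 : d % 4 = 3
    · exact T5_A hsf hd4 h3 h5 H' hn hbc (c1 hd4) c5 s1 s2
    · have hd4' : d % 4 = 1 := by omega
      rcases c2 hd4 with h8 | h8
      · obtain ⟨k1, k2⟩ := T5_B hsf hd4' h3 h5 H' hn hbc h8 c5 s1 s2
        exact ⟨k1, Or.inl k2⟩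
      · have c5' : ((n : ℤ) * c) % 5 = 1 ∨ ((n : ℤ) * c) % 5 = 4 := by
          have h9 : (((n : ℤ) * b) * ((n : ℤ) * c)) % 5 = (-((n : ℤ) ^ 2 * d)) % 5 := by
            have : ((n : ℤ) * b) * ((n : ℤ) * c) = -((n : ℤ) ^ 2 * d) := by
              linear_combination (n : ℤ) ^ 2 * hbc
            rw [this]
          rw [Int.mul_emod] at h9
          generalize (n : ℤ) * c = z at h9 ⊢
          generalize (n : ℤ) * b = w at h9 c5
          have hz : z % 5 = 0 ∨ z % 5 = 1 ∨ z % 5 = 2 ∨ z % 5 = 3 ∨ z % 5 = 4 := by omega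
          rcases hn with hn | hn <;> rw [hn] at h9 <;> push_cast at h9 <;>
            rcases c5 with h | h <;> rcases hz with h' | h' | h' | h' | h' <;>
            rw [h, h'] at h9 <;> rcases h5 with h5 | h5 <;> omega
        obtain ⟨k1, k2⟩ := T5_B hsf hd4' h3 h5 H' hn (b := c) (c := b) (by rw [mul_comm]; exact hbc)
          h8 c5' s2 s1
        exact ⟨k1, Or.inr k2⟩
  refine ⟨?_, key.2⟩
  rw [← hns, key.1]; rfl

end Vale.Agent.P017.H689
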