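import Vale.Agent.P017.H689.RedeiB

set_option autoImplicit false

/-!
# The field `hB` of `Cond` from the Redei lemma
-/

namespace Vale.P017.H689

theorem not_sq_of_neg {p : ℕ} (hp : p.Prime) (h4 : p % 4 = 3) {u : ZMod p} (hu : u ≠ 0)
    (h : IsSquare (-u)) : ¬ IsSquare u := by
  have := Fact.mk hp
  intro h'
  have h1 : IsSquare (-1 : ZMod p) := by
    obtain ⟨s, hs⟩ := h
    obtain ⟨t, ht⟩ := h'
    have ht0 : t ≠ 0 := by
      rintro rfl; exact hu (by rw [ht, mul_zero])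
    refine ⟨s / t, ?_⟩
    field_simp
    rw [pow_two, pow_two, ← hs, ← ht]
  rw [ZMod.exists_sq_eq_neg_one_iff] at h1
  exact h1 h4

theorem dvd_of_sqf {a D : ℕ} (ha : Squarefree a) (hD : D ≠ 0)
    (h : ∀ q : ℕ, q.Prime → q ∣ a → q ∣ D) : a ∣ D := by
  rw [← Nat.prod_primeFactors_of_squarefree ha]
  refine dvd_trans (Finset.prod_dvd_prod_of_subset _ _ _ ?_) (Nat.prod_primeFactors_dvd D)
  intro q hq
  exact Nat.mem_primeFactors.mpr ⟨Nat.prime_of_mem_primeFactors hq,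
    h q (Nat.prime_of_mem_primeFactors hq) (Nat.dvd_of_mem_primeFactors hq), hD⟩

theorem hB_redei {d : ℤ} (hd0 : 0 < d) (hsf : Squarefree d) (hmod : d % 120 = 83 ∨ d % 120 = 107)
    (h8 : ∀ p : ℕ, p.Prime → (p : ℤ) ∣ d → p % 8 = 3)
    (hR : ∀ a c : ℤ, 0 < a → 0 < c → d = a * c →
      (∀ p : ℕ, p.Prime → (p : ℤ) ∣ c → IsSquare ((a : ℤ) : ZMod p)) →
      (∀ p : ℕ, p.Prime → (p : ℤ) ∣ a → IsSquare ((c : ℤ) : ZMod p)) → a = 1 ∨ c = 1) :
    ∀ b : ℤ, Squarefree b → (∀ q : ℤ, Prime q → q ∣ b → q ∣ d) →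
    (∀ p : ℕ, p.Prime → p ≠ 2 → (p : ℤ) ∣ d → ¬ (p : ℤ) ∣ b →
        IsSquare ((b : ℤ) : ZMod p)) →
    (∀ p : ℕ, p.Prime → p ≠ 2 → ∀ β d' : ℤ, b = p * β → d = p * d' →
        IsSquare ((-(β * d') : ℤ) : ZMod p)) → b = 1 ∨ b = -d := by
  intro b hb hq h1 h2
  have hb0 : b ≠ 0 := hb.ne_zero
  -- `b` divides `d`
  have hbd : b ∣ d := by
    rw [← Int.natAbs_dvd_natAbs]
    apply dvd_of_sqf (Int.squarefree_natAbs.mpr hb) (by omega)
    intro q hqp hqb
    have h3 := hq (q : ℤ) (Nat.prime_iff_prime_int.mp hqp) (by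
      rw [← Int.natAbs_dvd_natAbs]; simpa using hqb)
    rw [← Int.natAbs_dvd_natAbs] at h3
    simpa using h3
  have hodd : ∀ p : ℕ, p.Prime → (p : ℤ) ∣ d → p ≠ 2 := by
    intro p hp hpd h
    have := h8 p hp hpd
    rw [h] at this
    omega
  -- no prime divides two complementary factors
  have hns : ∀ (p : ℕ) (a c : ℤ), p.Prime → d = a * c → (p : ℤ) ∣ a → ¬ (p : ℤ) ∣ c := by
    intro p a c hp hac hpa hpc
    have hpZ : Prime (p : ℤ) := Nat.prime_iff_prime_int.mp hp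
    have : (p : ℤ) * p ∣ d := by rw [hac]; exact mul_dvd_mul hpa hpc
    exact hpZ.not_isUnit (hsf _ this)
  have hunit : ∀ (p : ℕ) (t : ℤ), ¬ (p : ℤ) ∣ t → ((t : ℤ) : ZMod p) ≠ 0 := by
    intro p t ht h
    exact ht ((ZMod.intCast_zmod_eq_zero_iff_dvd t p).mp h)
  rcases lt_or_gt_of_ne hb0 with hneg | hpos
  · -- `b = -a`
    right
    obtain ⟨c', hc'⟩ := hbd
    -- `d = b c' = (-b)(-c')`
    have ha : 0 < -b := by omega
    have hc : 0 < -c' := by
      by_contra h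
      have h3 : 0 ≤ c' := by omega
      have : b * c' ≤ 0 := mul_nonpos_of_nonpos_of_nonneg hneg.le h3
      omega
    have hac : d = (-c') * (-b) := by rw [hc']; ring
    have := key_B hd0 hsf hmod h8 hR (-c') (-b) hc ha hac ?_ ?_
    · rw [hac, this]; ring
    · -- primes of `-b`: `-c'` is a square
      intro p hp hpb
      have hpd : (p : ℤ) ∣ d := by rw [hac]; exact hpb.mul_left _
      obtain ⟨β, hβ⟩ := (dvd_neg.mp hpb)
      have h3 := h2 p hp (hodd p hp hpd) β (β * c') hβ (by rw [hc', hβ]; ring)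
      have hβ0 : ¬ (p : ℤ) ∣ β := by
        intro h
        have hpZ : Prime (p : ℤ) := Nat.prime_iff_prime_int.mp hp
        obtain ⟨γ, hγ⟩ := h
        exact hpZ.not_isUnit (hb _ ⟨γ, by rw [hβ, hγ]; ring⟩)
      have hβu := hunit p β hβ0
      have := Fact.mk hp
      obtain ⟨s, hs⟩ := h3
      refine ⟨s / β, ?_⟩
      push_cast at hs ⊢
      field_simp
      linear_combination hs
    · intro p hp hpc
      have hpd : (p : ℤ) ∣ d := by rw [hac]; exact hpc.mul_right _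
      have hpb : ¬ (p : ℤ) ∣ -b := hns p _ _ hp hac hpc
      have hpb' : ¬ (p : ℤ) ∣ b := fun h => hpb ((dvd_neg).mpr h)
      apply not_sq_of_neg hp (by have := h8 p hp hpd; omega) (hunit p _ hpb)
      have h3 := h1 p hp (hodd p hp hpd) hpd hpb'
      push_cast
      simpa using h3
  · -- `b = a`
    left
    obtain ⟨c', hc'⟩ := hbd
    have hc : 0 < c' := by
      by_contra h
      have h3 : c' ≤ 0 := by omega
      have : b * c' ≤ 0 := mul_nonpos_of_nonneg_of_nonpos hpos.le h3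
      omega
    apply key_B hd0 hsf hmod h8 hR b c' hpos hc hc'
    · intro p hp hpc
      have hpd : (p : ℤ) ∣ d := by rw [hc']; exact hpc.mul_left _
      have hpb : ¬ (p : ℤ) ∣ b := fun h => hns p _ _ hp hc' h hpc
      exact h1 p hp (hodd p hp hpd) hpd hpb
    · intro p hp hpb
      have hpd : (p : ℤ) ∣ d := by rw [hc']; exact hpb.mul_right _
      have hpc : ¬ (p : ℤ) ∣ c' := hns p _ _ hp hc' hpb
      obtain ⟨β, hβ⟩ := hpb
      have h3 := h2 p hp (hodd p hp hpd) β (β * c') hβ (by rw [hc', hβ]; ring)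
      have hβ0 : ¬ (p : ℤ) ∣ β := by
        intro h
        have hpZ : Prime (p : ℤ) := Nat.prime_iff_prime_int.mp hp
        obtain ⟨γ, hγ⟩ := h
        exact hpZ.not_isUnit (hb _ ⟨γ, by rw [hβ, hγ]; ring⟩)
      have hβu := hunit p β hβ0
      have hcu := hunit p c' hpc
      have := Fact.mk hp
      have h4 : ¬ IsSquare ((β : ZMod p) * (β * c')) :=
        not_sq_of_neg hp (by have := h8 p hp hpd; omega) (mul_ne_zero hβu (mul_ne_zero hβu hcu))
          (by push_cast at h3; exact h3)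
      intro h5
      apply h4
      obtain ⟨t, ht⟩ := h5
      exact ⟨β * t, by rw [ht]; ring⟩

end Vale.P017.H689
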