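import Mathlib

set_option autoImplicit false

/-!
# `span {a, α} * span {Z, ξ} ^ 2 = span {ξ}`
-/

namespace Vale.Agent.P017.H689

theorem J_mul_sq {R : Type*} [CommRing R] [IsDomain R] [CharZero R] {α ξ η : R} {a b X Y Z : ℤ}
    (hα : α ^ 2 = -((a * b : ℤ) : R)) (hxyz : a * X ^ 2 + b * Y ^ 2 = 4 * Z ^ 2)
    (hξ : 2 * ξ = (a : R) * X + α * Y) (hη : 2 * η = (b : R) * Y + α * X)
    (ha2 : IsCoprime a (2 * Z)) (hb2 : IsCoprime b Z)
    (hco : ∃ u v w : ℤ, u * X + v * Y + w * Z = 1) :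
    Ideal.span {(a : R), α} * Ideal.span {(Z : R), ξ} ^ 2 = Ideal.span {ξ} := by
  have h2 : (2 : R) ≠ 0 := two_ne_zero
  have h4 : (4 : R) ≠ 0 := by
    have h5 : (4 : R) = 2 * 2 := by norm_num
    rw [h5]
    exact mul_ne_zero h2 h2
  have hxyz' : (a : R) * X ^ 2 + b * Y ^ 2 = 4 * Z ^ 2 := by
    exact_mod_cast congrArg (Int.cast (R := R)) hxyz
  push_cast at hα
  obtain ⟨ξ', hξ'⟩ : ∃ ξ' : R, ξ' = a * X - ξ := ⟨_, rfl⟩
  have e1 : (a : R) * Z ^ 2 = ξ * ξ' := by
    apply mul_left_cancel₀ h4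
    rw [hξ']
    linear_combination (-(a : R)) * hxyz' + Y ^ 2 * hα + (α * Y + 2 * ξ - a * X) * hξ
  have e2 : α * (Z : R) ^ 2 = ξ * η := by
    apply mul_left_cancel₀ h4
    linear_combination (-α) * hxyz' - (X * Y : R) * hα - (2 * η) * hξ - (a * X + α * Y) * hη
  have key : Ideal.span {(a : R), α} * Ideal.span {(Z : R), ξ} ^ 2
      = Ideal.span {ξ} * Ideal.span {ξ', η, (a : R) * Z, α * Z, a * ξ, α * ξ} := by
    set T := Ideal.span {ξ', η, (a : R) * Z, α * Z, a * ξ, α * ξ} with hT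
    have hs : ξ ∈ Ideal.span {ξ} := Ideal.mem_span_singleton_self ξ
    have t1 : ξ' ∈ T := Ideal.subset_span (by simp)
    have t2 : η ∈ T := Ideal.subset_span (by simp)
    have t3 : (a : R) * Z ∈ T := Ideal.subset_span (by simp)
    have t4 : α * Z ∈ T := Ideal.subset_span (by simp)
    have t5 : (a : R) * ξ ∈ T := Ideal.subset_span (by simp)
    have t6 : α * ξ ∈ T := Ideal.subset_span (by simp)
    apply le_antisymm
    · rw [pow_two, Ideal.span_pair_mul_span_pair, Ideal.span_mul_span', Ideal.span_le]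
      rintro _ ⟨p, hp, q, hq, rfl⟩
      simp only [Set.mem_insert_iff, Set.mem_singleton_iff] at hp hq
      simp only [SetLike.mem_coe]
      rcases hp with rfl | rfl <;> rcases hq with rfl | rfl | rfl | rfl
      · have := Ideal.mul_mem_mul hs t1
        rw [← e1] at this
        convert this using 1; ring
      · have := Ideal.mul_mem_mul hs t3
        convert this using 1; ring
      · have := Ideal.mul_mem_mul hs t3
        convert this using 1; ring
      · have := Ideal.mul_mem_mul hs t5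
        convert this using 1; ring
      · have := Ideal.mul_mem_mul hs t2
        rw [← e2] at this
        convert this using 1; ring
      · have := Ideal.mul_mem_mul hs t4
        convert this using 1; ring
      · have := Ideal.mul_mem_mul hs t4
        convert this using 1; ring
      · have := Ideal.mul_mem_mul hs t6
        convert this using 1; ring
    · rw [Ideal.mul_le]
      have ha : (a : R) ∈ Ideal.span {(a : R), α} := Ideal.subset_span (by simp)
      have hal : α ∈ Ideal.span {(a : R), α} := Ideal.subset_span (by simp)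
      have hZ : (Z : R) ∈ Ideal.span {(Z : R), ξ} := Ideal.subset_span (by simp)
      have hp : ξ ∈ Ideal.span {(Z : R), ξ} := Ideal.subset_span (by simp)
      have hm : ∀ r s t : R, r ∈ Ideal.span {(a : R), α} → s ∈ Ideal.span {(Z : R), ξ} →
          t ∈ Ideal.span {(Z : R), ξ} → r * (s * t) ∈
            Ideal.span {(a : R), α} * Ideal.span {(Z : R), ξ} ^ 2 := by
        intro r s t hr hs ht
        rw [pow_two]
        exact Ideal.mul_mem_mul hr (Ideal.mul_mem_mul hs ht)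
      intro p hp' q hq
      obtain ⟨c, rfl⟩ := Ideal.mem_span_singleton'.mp hp'
      rw [mul_assoc]
      apply Ideal.mul_mem_left
      rw [hT] at hq
      induction hq using Submodule.span_induction with
      | mem q hq =>
        simp only [Set.mem_insert_iff, Set.mem_singleton_iff] at hq
        rcases hq with rfl | rfl | rfl | rfl | rfl | rfl
        · rw [← e1]
          have := hm _ _ _ ha hZ hZ
          rwa [← pow_two] at this
        · rw [← e2]
          have := hm _ _ _ hal hZ hZ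
          rwa [← pow_two] at this
        · have := hm _ _ _ ha hp hZ
          convert this using 1; ring
        · have := hm _ _ _ hal hp hZ
          convert this using 1; ring
        · have := hm _ _ _ ha hp hp
          convert this using 1; ring
        · have := hm _ _ _ hal hp hp
          convert this using 1; ring
      | zero => rw [mul_zero]; exact Ideal.zero_mem _
      | add q r _ _ hq hr => rw [mul_add]; exact Ideal.add_mem _ hq hr
      | smul c q _ hq =>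
        rw [smul_eq_mul]
        have : ξ * (c * q) = c * (ξ * q) := by ring
        rw [this]
        exact Ideal.mul_mem_left _ _ hq
  rw [key]
  suffices h : Ideal.span {ξ', η, (a : R) * Z, α * Z, a * ξ, α * ξ} = ⊤ by
    rw [h, Ideal.mul_top]
  rw [Ideal.eq_top_iff_one]
  set T := Ideal.span {ξ', η, (a : R) * Z, α * Z, a * ξ, α * ξ} with hT
  have t1 : ξ' ∈ T := Ideal.subset_span (by simp)
  have t2 : η ∈ T := Ideal.subset_span (by simp)
  have t3 : (a : R) * Z ∈ T := Ideal.subset_span (by simp)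
  have t5 : (a : R) * ξ ∈ T := Ideal.subset_span (by simp)
  have hζ : 2 * (Z : R) ^ 2 ∈ T := by
    have h5 : 2 * (Z : R) ^ 2 = X * ξ' + Y * η := by
      apply mul_left_cancel₀ h2
      rw [hξ']
      linear_combination (-1 : R) * hxyz' + (X : R) * hξ - (Y : R) * hη
    rw [h5]
    exact T.add_mem (T.mul_mem_left _ t1) (T.mul_mem_left _ t2)
  have hZ : (Z : R) ∈ T := by
    obtain ⟨u, v, huv⟩ := ha2
    have h6 : (Z : R) = u * (a * Z) + v * (2 * Z ^ 2) := by
      have := congrArg (Int.cast (R := R)) huv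
      push_cast at this
      linear_combination (-(Z : R)) * this
    rw [h6]
    exact T.add_mem (T.mul_mem_left _ t3) (T.mul_mem_left _ hζ)
  have haX : (a : R) ^ 2 * X ∈ T := by
    have h7 : (a : R) ^ 2 * X = a * ξ' + a * ξ := by rw [hξ']; ring
    rw [h7]
    exact T.add_mem (T.mul_mem_left _ t1) t5
  have haY : (a : R) ^ 2 * b * Y ∈ T := by
    have h8 : (a : R) ^ 2 * b * Y = α * (a * ξ') - α * (a * ξ) := by
      rw [hξ']
      linear_combination (a * Y : R) * hα + (a * α : R) * hξ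
    rw [h8]
    exact T.sub_mem (T.mul_mem_left _ (T.mul_mem_left _ t1)) (T.mul_mem_left _ t5)
  have haZ : IsCoprime a Z := ha2.of_isCoprime_of_dvd_right (Dvd.intro_left 2 rfl)
  have hX : (X : R) ∈ T := by
    obtain ⟨u, v, huv⟩ : IsCoprime (a ^ 2) Z := haZ.pow_left
    have h6 : (X : R) = u * (a ^ 2 * X) + v * X * Z := by
      have := congrArg (Int.cast (R := R)) huv
      push_cast at this
      linear_combination (-(X : R)) * this
    rw [h6]
    exact T.add_mem (T.mul_mem_left _ haX) (T.mul_mem_left _ hZ)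
  have hY : (Y : R) ∈ T := by
    obtain ⟨u, v, huv⟩ : IsCoprime (a ^ 2 * b) Z := haZ.pow_left.mul_left hb2
    have h6 : (Y : R) = u * (a ^ 2 * b * Y) + v * Y * Z := by
      have := congrArg (Int.cast (R := R)) huv
      push_cast at this
      linear_combination (-(Y : R)) * this
    rw [h6]
    exact T.add_mem (T.mul_mem_left _ haY) (T.mul_mem_left _ hZ)
  obtain ⟨u, v, w, huvw⟩ := hco
  have h9 : (1 : R) = u * X + v * Y + w * Z := by
    have := congrArg (Int.cast (R := R)) huvw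
    push_cast at this
    exact this.symm
  rw [h9]
  exact T.add_mem (T.add_mem (T.mul_mem_left _ hX) (T.mul_mem_left _ hY)) (T.mul_mem_left _ hZ)

open NumberField in
theorem exists_omega {K : Type*} [Field K] [NumberField K] {α : 𝓞 K} {d : ℕ} (h3 : d % 4 = 3)
    (hα : α ^ 2 = -(d : 𝓞 K)) : ∃ ω : 𝓞 K, 2 * ω = 1 + α := by
  have hK : (α : K) ^ 2 = -(d : K) := by
    have := congrArg (algebraMap (𝓞 K) K) hα
    simpa using this
  have hint : IsIntegral ℤ ((1 + (α : K)) / 2) := by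
    obtain ⟨k, hk⟩ : ∃ k : ℕ, d = 4 * k + 3 := ⟨d / 4, by omega⟩
    refine ⟨Polynomial.X ^ 2 - Polynomial.X + Polynomial.C ((k : ℤ) + 1), ?_, ?_⟩
    · monicity!
    · simp only [Polynomial.eval₂_add, Polynomial.eval₂_sub, Polynomial.eval₂_pow,
        Polynomial.eval₂_X, Polynomial.eval₂_C]
      have h5 : (d : K) = 4 * (k : K) + 3 := by rw [hk]; push_cast; ring
      rw [h5] at hK
      simp only [algebraMap_int_eq, eq_intCast, Int.cast_add, Int.cast_natCast, Int.cast_one]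
      linear_combination (1 / 4 : K) * hK
  refine ⟨⟨(1 + (α : K)) / 2, hint⟩, ?_⟩
  apply RingOfIntegers.ext
  simp only [map_add, map_one]
  show (2 : K) * ((1 + (α : K)) / 2) = 1 + (α : K)
  ring

/-- a primitive solution -/
theorem exists_prim {a b : ℤ} {x y z : ℤ} (h : z ^ 2 = a * x ^ 2 + b * y ^ 2) (hz : z ≠ 0) :
    ∃ x y z : ℤ, z ^ 2 = a * x ^ 2 + b * y ^ 2 ∧ z ≠ 0 ∧ ∃ u v w : ℤ, u * x + v * y + w * z = 1 := by
  obtain ⟨g, hg⟩ : ∃ g : ℤ, g = Int.gcd (Int.gcd x y) z := ⟨_, rfl⟩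
  have hg0 : g ≠ 0 := by
    rw [hg]
    intro h0
    have h1 : Int.gcd (Int.gcd x y) z = 0 := by exact_mod_cast h0
    rw [Int.gcd_eq_zero_iff] at h1
    exact hz h1.2
  have hgx : g ∣ x := by
    rw [hg]
    exact (Int.gcd_dvd_left _ _).trans (Int.gcd_dvd_left _ _)
  have hgy : g ∣ y := by
    rw [hg]
    exact (Int.gcd_dvd_left _ _).trans (Int.gcd_dvd_right _ _)
  have hgz : g ∣ z := by
    rw [hg]
    exact Int.gcd_dvd_right _ _
  have hB1 := Int.gcd_eq_gcd_ab (Int.gcd x y) z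
  have hB2 := Int.gcd_eq_gcd_ab x y
  rw [← hg] at hB1
  generalize Int.gcdA (↑(Int.gcd x y)) z = p at hB1
  generalize Int.gcdB (↑(Int.gcd x y)) z = q at hB1
  rw [hB2] at hB1
  generalize Int.gcdA x y = r at hB1
  generalize Int.gcdB x y = s at hB1
  obtain ⟨x', rfl⟩ := hgx
  obtain ⟨y', rfl⟩ := hgy
  obtain ⟨z', rfl⟩ := hgz
  refine ⟨x', y', z', ?_, ?_, r * p, s * p, q, ?_⟩
  · apply mul_left_cancel₀ (pow_ne_zero 2 hg0)
    linear_combination h
  · rintro rfl
    exact hz (mul_zero _)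
  · apply mul_left_cancel₀ hg0
    linear_combination -hB1

theorem cop_aux {a b : ℕ} (hs : Squarefree (a * b)) {x y z : ℤ}
    (h : z ^ 2 = a * x ^ 2 + b * y ^ 2) (hco : ∃ u v w : ℤ, u * x + v * y + w * z = 1) :
    IsCoprime (a : ℤ) z := by
  rw [Int.isCoprime_iff_gcd_eq_one]
  by_contra hne
  obtain ⟨p, hp, hpd⟩ := Nat.exists_prime_and_dvd hne
  have hpa' : (p : ℤ) ∣ a := (Int.natCast_dvd_natCast.mpr hpd).trans (Int.gcd_dvd_left _ _)
  have hpz : (p : ℤ) ∣ z := (Int.natCast_dvd_natCast.mpr hpd).trans (Int.gcd_dvd_right _ _)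
  have hpa : p ∣ a := Int.natCast_dvd_natCast.mp hpa'
  have hpp : Prime (p : ℤ) := Nat.prime_iff_prime_int.mp hp
  have hcop : Nat.Coprime a b := Nat.coprime_of_squarefree_mul hs
  have hpb : ¬ (p : ℤ) ∣ b := by
    intro hb
    have hb' : p ∣ b := Int.natCast_dvd_natCast.mp hb
    exact hp.one_lt.ne' (Nat.dvd_one.mp (hcop ▸ Nat.dvd_gcd hpa hb'))
  have hpy : (p : ℤ) ∣ y := by
    have h1 : (p : ℤ) ∣ b * y ^ 2 := by
      have : (b : ℤ) * y ^ 2 = z ^ 2 - a * x ^ 2 := by linear_combination -h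
      rw [this]
      exact dvd_sub (hpz.trans (Dvd.intro z (by ring))) (hpa'.mul_right _)
    rcases hpp.dvd_or_dvd h1 with h2 | h2
    · exact absurd h2 hpb
    · exact hpp.dvd_of_dvd_pow h2
  have hpx : (p : ℤ) ∣ x := by
    obtain ⟨a', rfl⟩ := hpa
    have ha' : ¬ (p : ℤ) ∣ a' := by
      intro h1
      have h2 : p ∣ a' := Int.natCast_dvd_natCast.mp h1
      obtain ⟨c, rfl⟩ := h2
      have := hs p ⟨c * b, by ring⟩
      exact hp.one_lt.ne' (Nat.isUnit_iff.mp this)
    obtain ⟨y', rfl⟩ := hpy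
    obtain ⟨z', rfl⟩ := hpz
    have h1 : (p : ℤ) ∣ a' * x ^ 2 := by
      refine ⟨z' ^ 2 - b * y' ^ 2, ?_⟩
      apply mul_left_cancel₀ hpp.ne_zero
      push_cast at h
      linear_combination -h
    rcases hpp.dvd_or_dvd h1 with h2 | h2
    · exact absurd h2 ha'
    · exact hpp.dvd_of_dvd_pow h2
  obtain ⟨u, v, w, huvw⟩ := hco
  have : (p : ℤ) ∣ 1 := by
    rw [← huvw]
    exact dvd_add (dvd_add (hpx.mul_left _) (hpy.mul_left _)) (hpz.mul_left _)
  exact hpp.not_isUnit (isUnit_of_dvd_one this)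

open NumberField in
theorem exists_J {K : Type*} [Field K] [NumberField K] {α : 𝓞 K} {a b : ℕ} (h3 : a * b % 4 = 3)
    (hs : Squarefree (a * b)) (hα : α ^ 2 = -((a * b : ℕ) : 𝓞 K)) {x y z : ℤ}
    (h : z ^ 2 = a * x ^ 2 + b * y ^ 2) (hz : z ≠ 0) :
    ∃ (J : Ideal (𝓞 K)) (ξ : 𝓞 K), ξ ≠ 0 ∧
      Ideal.span {(a : 𝓞 K), α} * J ^ 2 = Ideal.span {ξ} := by
  obtain ⟨ω, hω⟩ := exists_omega h3 hα
  obtain ⟨x, y, z, h, hz, hco⟩ := exists_prim h hz
  have hca := cop_aux hs h hco
  have hcb : IsCoprime (b : ℤ) z := by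
    refine cop_aux (b := a) (x := y) (y := x) (by rwa [mul_comm]) (by rw [h]; ring) ?_
    obtain ⟨u, v, w, huvw⟩ := hco
    exact ⟨v, u, w, by rw [← huvw]; ring⟩
  have hα' : α ^ 2 = -(((a : ℤ) * b : ℤ) : 𝓞 K) := by rw [hα]; push_cast; ring
  have ha1 : a % 2 = 1 := by
    rcases Nat.mod_two_eq_zero_or_one a with h1 | h1
    · exfalso
      have h5 : a * b % 2 = 0 := by rw [Nat.mul_mod, h1]; simp
      omega
    · exact h1
  have hb1 : b % 2 = 1 := by
    rcases Nat.mod_two_eq_zero_or_one b with h1 | h1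
    · exfalso
      have h5 : a * b % 2 = 0 := by rw [Nat.mul_mod, h1]; simp
      omega
    · exact h1
  have hao : IsCoprime (a : ℤ) 2 := by
    rw [Int.isCoprime_iff_gcd_eq_one]
    have h2 : Nat.Coprime a 2 := Nat.coprime_two_right.mpr (Nat.odd_iff.mpr ha1)
    simpa [Int.gcd] using h2
  have hne : ∀ (X Y Z : ℤ) (ξ η : 𝓞 K), Z ≠ 0 → (a : ℤ) * X ^ 2 + b * Y ^ 2 = 4 * Z ^ 2 →
      2 * ξ = ((a : ℤ) : 𝓞 K) * X + α * Y → 2 * η = ((b : ℤ) : 𝓞 K) * Y + α * X →
      IsCoprime (a : ℤ) (2 * Z) → IsCoprime (b : ℤ) Z →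
      (∃ u v w : ℤ, u * X + v * Y + w * Z = 1) →
      ∃ (J : Ideal (𝓞 K)) (ξ : 𝓞 K), ξ ≠ 0 ∧
      Ideal.span {(a : 𝓞 K), α} * J ^ 2 = Ideal.span {ξ} := by
    intro X Y Z ξ η hZ h1 h2 h3 h4 h5 h6
    refine ⟨Ideal.span {(Z : 𝓞 K), ξ}, ξ, ?_, ?_⟩
    rotate_left
    · have := J_mul_sq hα' h1 h2 h3 h4 h5 h6
      simpa using this
    · rintro rfl
      have e1 : (4 : 𝓞 K) * (Z : 𝓞 K) ^ 2 * a = 0 := by
        have h1' : ((a : ℤ) : 𝓞 K) * X ^ 2 + ((b : ℤ) : 𝓞 K) * Y ^ 2 = 4 * Z ^ 2 := by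
          exact_mod_cast congrArg (Int.cast (R := 𝓞 K)) h1
        push_cast at h1' h2 hα'
        linear_combination (-(a : 𝓞 K)) * h1' + Y ^ 2 * hα' - ((a : 𝓞 K) * X - α * Y) * h2
      have ha0 : (a : 𝓞 K) ≠ 0 := by
        intro h0
        have : a = 0 := by exact_mod_cast h0
        omega
      have hZ' : (Z : 𝓞 K) ≠ 0 := by exact_mod_cast hZ
      have h40 : (4 : 𝓞 K) ≠ 0 := by
        have : (4 : 𝓞 K) = ((4 : ℕ) : 𝓞 K) := by norm_num
        rw [this]; exact_mod_cast (by norm_num : (4 : ℕ) ≠ 0)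
      exact (mul_ne_zero (mul_ne_zero h40 (pow_ne_zero 2 hZ')) ha0) e1
  rcases Int.even_or_odd z with hze | hzo
  · obtain ⟨t, ht⟩ := hze
    have hxy : x % 2 = 1 ∧ y % 2 = 1 := by
      have h8 : (z ^ 2 : ℤ) % 4 = 0 := by
        rw [ht]
        have : ((t + t) ^ 2 : ℤ) = 4 * t ^ 2 := by ring
        rw [this]; omega
      have hsq : ∀ s : ℤ, (s % 2 = 0 ∧ s ^ 2 % 4 = 0) ∨ (s % 2 = 1 ∧ s ^ 2 % 4 = 1) := by
        intro s
        rcases Int.even_or_odd s with ⟨r, hr⟩ | ⟨r, hr⟩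
        · left
          refine ⟨by omega, ?_⟩
          have : s ^ 2 = 4 * r ^ 2 := by rw [hr]; ring
          omega
        · right
          refine ⟨by omega, ?_⟩
          have : s ^ 2 = 4 * (r ^ 2 + r) + 1 := by rw [hr]; ring
          omega
      have ha4 : (a : ℤ) % 4 = 1 ∨ (a : ℤ) % 4 = 3 := by omega
      have hb4 : (b : ℤ) % 4 = 1 ∨ (b : ℤ) % 4 = 3 := by omega
      rw [h, Int.add_emod, Int.mul_emod, Int.mul_emod (b : ℤ)] at h8
      rcases hsq x with ⟨hx, hx4⟩ | ⟨hx, hx4⟩ <;> rcases hsq y with ⟨hy, hy4⟩ | ⟨hy, hy4⟩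
      · exfalso
        obtain ⟨u, v, w, huvw⟩ := hco
        obtain ⟨x', hx'⟩ : ∃ x', x = 2 * x' := ⟨x / 2, by omega⟩
        obtain ⟨y', hy'⟩ : ∃ y', y = 2 * y' := ⟨y / 2, by omega⟩
        have : 2 * (u * x' + v * y' + w * t) = 1 := by
          rw [← huvw, hx', hy', ht]; ring
        omega
      · rw [hx4, hy4] at h8
        rcases hb4 with hb4 | hb4 <;> rw [hb4] at h8 <;> simp at h8
      · rw [hx4, hy4] at h8
        rcases ha4 with ha4 | ha4 <;> rw [ha4] at h8 <;> simp at h8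
      · exact ⟨hx, hy⟩
    obtain ⟨r, hr⟩ : ∃ r : ℤ, a * x - y = 2 * r := by
      refine ⟨(a * x - y) / 2, ?_⟩
      have h5 : (a * x : ℤ) % 2 = 1 := by
        rw [Int.mul_emod, hxy.1]
        have : (a : ℤ) % 2 = 1 := by omega
        rw [this]; norm_num
      omega
    obtain ⟨s, hs'⟩ : ∃ s : ℤ, b * y - x = 2 * s := by
      refine ⟨(b * y - x) / 2, ?_⟩
      have h5 : (b * y : ℤ) % 2 = 1 := by
        rw [Int.mul_emod, hxy.2]
        have : (b : ℤ) % 2 = 1 := by omega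
        rw [this]; norm_num
      omega
    have hr' : (a : 𝓞 K) * x - y = 2 * r := by exact_mod_cast congrArg (Int.cast (R := 𝓞 K)) hr
    have hs'' : (b : 𝓞 K) * y - x = 2 * s := by exact_mod_cast congrArg (Int.cast (R := 𝓞 K)) hs'
    have hzt : z = 2 * t := by omega
    refine hne x y t (r + y * ω) (s + x * ω) (by rintro rfl; exact hz (by simpa using hzt))
      (by rw [← h, hzt]; ring) ?_ ?_ (by rw [← hzt]; exact hca) ?_ ?_
    · push_cast
      linear_combination (-1 : 𝓞 K) * hr' + (y : 𝓞 K) * hω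
    · push_cast
      linear_combination (-1 : 𝓞 K) * hs'' + (x : 𝓞 K) * hω
    · rw [hzt] at hcb
      exact hcb.of_mul_right_right
    · obtain ⟨u, v, w, huvw⟩ := hco
      exact ⟨u, v, 2 * w, by rw [← huvw, hzt]; ring⟩
  · refine hne (2 * x) (2 * y) z (a * x + α * y) (b * y + α * x) hz (by rw [h]; ring)
      (by push_cast; ring) (by push_cast; ring) (hao.mul_right hca) hcb ?_
    obtain ⟨u, v, w, huvw⟩ := hco
    obtain ⟨k, hk⟩ := hzo
    exact ⟨-k * u, -k * v, 1 - 2 * k * w, by linear_combination (-2 * k) * huvw + hk⟩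

end Vale.Agent.P017.H689
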