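import Vale.Agent.P017.H689.HB

set_option autoImplicit false

/-!
# `R1 → R2`: a Redei matrix and its transpose have kernels of the same size
-/

namespace Vale.P017.H689

open Finset

/-- linear algebra over `ZMod 2`: the transposed matrix has the smallest possible kernel too -/
theorem ker_transpose {ι : Type*} [Fintype ι] [DecidableEq ι] (M : Matrix ι ι (ZMod 2))
    (hrec : ∀ i j, i ≠ j → M i j + M j i = 1) (hrow : ∀ i, ∑ j, M i j = 0)
    (hodd : Odd (Fintype.card ι))
    (hker : ∀ x : ι → ZMod 2, M.mulVec x = 0 → x = 0 ∨ x = 1)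
    (x : ι → ZMod 2) (hxT : M.transpose.mulVec x = 0) : x = 0 ∨ x = 1 := by
  have two : ∀ t : ZMod 2, t + t = 0 := by decide
  have hz : ∀ c : ZMod 2, c = 0 ∨ c = 1 := by decide
  have hcard : (Fintype.card ι : ZMod 2) = 1 := by
    obtain ⟨k, hk⟩ := hodd
    rw [hk]; push_cast
    have : (2 : ZMod 2) = 0 := by decide
    rw [this]; ring
  have htr : ∀ y : ι → ZMod 2, ∀ i, M.transpose.mulVec y i = M.mulVec y i + (∑ j, y j) + y i := by
    intro y i
    have h1 : ∀ j, M j i = M i j + 1 + (if j = i then 1 else 0) := by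
      intro j
      by_cases h : j = i
      · subst h
        simp [add_assoc, two 1]
      · have := hrec i j (fun h' => h h'.symm)
        rw [if_neg h, add_zero]
        have h3 : M j i = M i j + (M i j + M j i) := by
          rw [← add_assoc, two, zero_add]
        rw [h3, this]
    simp only [Matrix.mulVec, dotProduct, Matrix.transpose_apply]
    rw [Finset.sum_congr rfl (fun j _ => by rw [h1 j])]
    simp only [add_mul, one_mul, ite_mul, zero_mul, Finset.sum_add_distrib]
    simp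
  have hone : M.mulVec 1 = 0 := by
    funext i
    simpa [Matrix.mulVec, dotProduct] using hrow i
  have honeT : M.transpose.mulVec 1 = 0 := by
    funext i
    rw [htr, hone]
    simp [hcard, two 1]
  have hd1 : Module.finrank (ZMod 2) (LinearMap.ker M.mulVecLin) ≤ 1 := by
    rw [finrank_le_one_iff]
    refine ⟨⟨1, by simpa using hone⟩, fun w => ?_⟩
    obtain ⟨w, hw⟩ := w
    rcases hker w (by simpa using hw) with h | h
    · exact ⟨0, by ext1; simp [h]⟩
    · exact ⟨1, by ext1; simp [h]⟩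
  have hd2 : Module.finrank (ZMod 2) (LinearMap.ker M.transpose.mulVecLin) ≤ 1 := by
    have e1 := LinearMap.finrank_range_add_finrank_ker M.mulVecLin
    have e2 := LinearMap.finrank_range_add_finrank_ker M.transpose.mulVecLin
    have e3 : Module.finrank (ZMod 2) (LinearMap.range M.transpose.mulVecLin)
        = Module.finrank (ZMod 2) (LinearMap.range M.mulVecLin) := Matrix.rank_transpose M
    omega
  rw [finrank_le_one_iff] at hd2
  obtain ⟨v, hv⟩ := hd2
  by_cases hx0 : x = 0
  · exact Or.inl hx0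
  right
  have hall : ∀ w : LinearMap.ker M.transpose.mulVecLin, w ≠ 0 → w = v := by
    intro w hw
    obtain ⟨c, hc⟩ := hv w
    rcases hz c with h | h
    · exact absurd (by rw [← hc, h, zero_smul]) hw
    · rw [← hc, h, one_smul]
  have hne : Nonempty ι := by
    rw [← Fintype.card_pos_iff]
    exact hodd.pos
  have w1 : (⟨x, by rw [LinearMap.mem_ker, Matrix.mulVecLin_apply]; exact hxT⟩ :
      LinearMap.ker M.transpose.mulVecLin) = v := by
    apply hall
    intro h
    exact hx0 (congrArg Subtype.val h)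
  have w2 : (⟨1, by rw [LinearMap.mem_ker, Matrix.mulVecLin_apply]; exact honeT⟩ :
      LinearMap.ker M.transpose.mulVecLin) = v := by
    apply hall
    intro h
    have := congrArg Subtype.val h
    exact one_ne_zero this
  exact congrArg Subtype.val (w1.trans w2.symm)

/-- `∏ q`, all `q = 3` mod `4`, is `(-1)^#` mod `4` -/
theorem prod_mod_four (S : Finset ℕ) (h : ∀ q ∈ S, q % 4 = 3) :
    ((∏ q ∈ S, q : ℕ) : ZMod 4) = (-1) ^ S.card := by
  push_cast
  rw [Finset.prod_congr rfl (g := fun _ => (-1 : ZMod 4)), Finset.prod_const]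
  intro q hq
  have h3 : ((q : ℕ) : ZMod 4) = ((3 : ℕ) : ZMod 4) := by
    rw [ZMod.natCast_eq_natCast_iff]; exact h q hq
  rw [h3]; decide

theorem card_odd4 {D : ℕ} (hsf : Squarefree D) (hD : D % 4 = 3)
    (h4 : ∀ p : ℕ, p.Prime → p ∣ D → p % 4 = 3) : Odd D.primeFactors.card := by
  have h1 : ∏ p ∈ D.primeFactors, p = D := Nat.prod_primeFactors_of_squarefree hsf
  have h2 := prod_mod_four D.primeFactors
    (fun q hq => h4 q (Nat.prime_of_mem_primeFactors hq) (Nat.dvd_of_mem_primeFactors hq))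
  rw [h1] at h2
  have h3 : ((D : ℕ) : ZMod 4) = ((3 : ℕ) : ZMod 4) := by
    rw [ZMod.natCast_eq_natCast_iff]; exact hD
  rw [h3] at h2
  by_contra hodd
  rw [Nat.not_odd_iff_even] at hodd
  rw [hodd.neg_one_pow] at h2
  exact absurd h2 (by decide)

/-- the kernel of the Redei matrix under `R1` -/
theorem kernel_R1 {D : ℕ} {P : Finset ℕ} (hP : P = D.primeFactors) (hsf : Squarefree D)
    (hR : ∀ a c : ℕ, a * c = D → (∀ p : ℕ, p.Prime → p ∣ c → IsSquare ((a : ℤ) : ZMod p)) →
      (∀ p : ℕ, p.Prime → p ∣ a → IsSquare ((c : ℤ) : ZMod p)) → a = 1 ∨ c = 1)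
    (x : P → ZMod 2) (hx : (RM P).mulVec x = 0) : x = 0 ∨ x = 1 := by
  classical
  have hPp : ∀ p ∈ P, p.Prime := fun p hp => Nat.prime_of_mem_primeFactors (hP ▸ hp)
  have hprod : ∏ p ∈ P, p = D := by rw [hP]; exact Nat.prod_primeFactors_of_squarefree hsf
  have hcop : ∀ p ∈ P, ∀ q ∈ P, p ≠ q → ¬ p ∣ q := by
    intro p hp q hq hpq h
    exact hpq ((Nat.prime_dvd_prime_iff_eq (hPp p hp) (hPp q hq)).mp h)
  have hz2 : ∀ s : ZMod 2, s = 0 ∨ s = 1 := by decide
  have hform : ∀ (x : P → ZMod 2) (i : P) (S : Finset ℕ), S ⊆ P →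
      (∀ q (hq : q ∈ P), q ∈ S ↔ x ⟨q, hq⟩ ≠ x i) →
      (RM P).mulVec x i = ee i (∏ q ∈ S, q) := by
    intro x i S hSP hS
    rw [RM_mulVec]
    obtain ⟨S', h3, h4, h5⟩ := prod_filter_coe P (fun j => x j ≠ x i)
    rw [h5 (fun q => ee i q)]
    have : S' = S := by
      ext q
      constructor
      · intro hq
        exact (hS q (h3 hq)).mpr ((h4 q (h3 hq)).mp hq)
      · intro hq
        exact (h4 q (hSP hq)).mpr ((hS q (hSP hq)).mp hq)
    rw [this, ee_prod (hPp i i.2)]
    intro q hq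
    apply hcop i i.2 q (hSP hq)
    intro h
    have := (hS q (hSP hq)).mp hq
    apply this
    congr 1
    exact Subtype.ext h.symm
  set S := P.filter (fun q => ∃ hq : q ∈ P, x ⟨q, hq⟩ = 1) with hS
  set S' := P.filter (fun q => ¬ ∃ hq : q ∈ P, x ⟨q, hq⟩ = 1) with hS'
  have hSm : ∀ q (hq : q ∈ P), q ∈ S ↔ x ⟨q, hq⟩ = 1 := by
    intro q hq
    rw [hS, Finset.mem_filter]
    constructor
    · rintro ⟨_, _, h⟩; exact h
    · intro h; exact ⟨hq, hq, h⟩
  have hSm' : ∀ q (hq : q ∈ P), q ∈ S' ↔ x ⟨q, hq⟩ = 0 := by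
    intro q hq
    rw [hS', Finset.mem_filter]
    constructor
    · rintro ⟨_, h⟩
      rcases hz2 (x ⟨q, hq⟩) with h0 | h0
      · exact h0
      · exact absurd ⟨hq, h0⟩ h
    · intro h
      refine ⟨hq, ?_⟩
      rintro ⟨_, h'⟩
      rw [h] at h'
      exact absurd h' (by decide)
  have hmul : (∏ q ∈ S, q) * ∏ q ∈ S', q = D := by
    rw [hS, hS', Finset.prod_filter_mul_prod_filter_not, hprod]
  have hmem : ∀ (U : Finset ℕ), U ⊆ P → ∀ p : ℕ, p.Prime → p ∣ ∏ q ∈ U, q → p ∈ U := by
    intro U hU p hp hpd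
    obtain ⟨q, hq, hpq⟩ := (Prime.dvd_finsetProd_iff hp.prime _).mp hpd
    rwa [(Nat.prime_dvd_prime_iff_eq hp (hPp q (hU hq))).mp hpq]
  have hSP : S ⊆ P := Finset.filter_subset _ _
  have hSP' : S' ⊆ P := Finset.filter_subset _ _
  have g1 : ∀ p : ℕ, p.Prime → p ∣ ∏ q ∈ S', q →
      IsSquare (((∏ q ∈ S, q : ℕ) : ℤ) : ZMod p) := by
    intro p hp hpd
    have hpS := hmem S' hSP' p hp hpd
    have hpP := hSP' hpS
    have hxp := (hSm' p hpP).mp hpS
    have := hform x ⟨p, hpP⟩ S hSP (by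
      intro q hq
      rw [hSm q hq, hxp]
      rcases hz2 (x ⟨q, hq⟩) with h0 | h0 <;> simp [h0])
    rw [hx] at this
    have h5 := ee_eq_zero.mp this.symm
    rw [Int.cast_natCast]
    exact h5
  have g2 : ∀ p : ℕ, p.Prime → p ∣ ∏ q ∈ S, q →
      IsSquare (((∏ q ∈ S', q : ℕ) : ℤ) : ZMod p) := by
    intro p hp hpd
    have hpS := hmem S hSP p hp hpd
    have hpP := hSP hpS
    have hxp := (hSm p hpP).mp hpS
    have := hform x ⟨p, hpP⟩ S' hSP' (by
      intro q hq
      rw [hSm' q hq, hxp]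
      rcases hz2 (x ⟨q, hq⟩) with h0 | h0 <;> simp [h0])
    rw [hx] at this
    have h5 := ee_eq_zero.mp this.symm
    rw [Int.cast_natCast]
    exact h5
  rcases hR _ _ hmul g1 g2 with h | h
  · left
    funext ⟨q, hq⟩
    rcases hz2 (x ⟨q, hq⟩) with h0 | h0
    · exact h0
    · exfalso
      have hqS := (hSm q hq).mpr h0
      have := Finset.dvd_prod_of_mem (fun q : ℕ => q) hqS
      rw [h] at this
      exact (hPp q hq).one_lt.ne' (Nat.dvd_one.mp this)
  · right
    funext ⟨q, hq⟩
    rcases hz2 (x ⟨q, hq⟩) with h0 | h0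
    · exfalso
      have hqS := (hSm' q hq).mpr h0
      have := Finset.dvd_prod_of_mem (fun q : ℕ => q) hqS
      rw [h] at this
      exact (hPp q hq).one_lt.ne' (Nat.dvd_one.mp this)
    · exact h0

/-- the formula for the transposed matrix -/
theorem RMT_mulVec {P : Finset ℕ} (hP : ∀ p ∈ P, p.Prime) (h4 : ∀ p ∈ P, p % 4 = 3)
    (hodd : Odd P.card) (x : P → ZMod 2) (i : P) :
    (RM P).transpose.mulVec x i
      = ∑ j ∈ Finset.univ.filter (fun j => x j ≠ x i), (ee i j + 1) := by
  have two : ∀ t : ZMod 2, t + t = 0 := by decide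
  have hrec : ∀ j : P, i ≠ j → ee j i = ee i j + 1 := by
    intro j hij
    have := ee_rec (hP i i.2) (hP j j.2) (h4 i i.2) (h4 j j.2) (fun h => hij (Subtype.ext h))
    rw [← this, ← add_assoc, two, zero_add]
  have hentry : ∀ j : P, (RM P) j i = (if i = j then 0 else (ee i j + 1))
      + (if i = j then ∑ k : P, (if i = k then 0 else (ee i k + 1)) else 0) := by
    intro j
    simp only [RM]
    by_cases h : i = j
    · subst h
      simp only [if_true, zero_add]
      have h1 : ∀ k : P, (if i = k then (0 : ZMod 2) else (ee i k + 1))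
          = (if i = k then 0 else ee i k) + (1 + if i = k then 1 else 0) := by
        intro k
        by_cases h2 : i = k
        · simp [h2, two 1]
        · simp [h2]
      rw [Finset.sum_congr rfl (fun k _ => h1 k), Finset.sum_add_distrib, Finset.sum_add_distrib]
      have hcard : ((P.card : ℕ) : ZMod 2) = 1 := by
        obtain ⟨k, hk⟩ := hodd
        rw [hk]; push_cast
        have : (2 : ZMod 2) = 0 := by decide
        rw [this]; ring
      simp [hcard, two 1]
    · rw [if_neg (Ne.symm h), if_neg (Ne.symm h), if_neg h, if_neg h, hrec j h]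
  simp only [Matrix.mulVec, dotProduct, Matrix.transpose_apply]
  rw [Finset.sum_congr rfl (fun j _ => by rw [hentry j])]
  simp only [add_mul, Finset.sum_add_distrib, ite_mul, zero_mul]
  rw [Finset.sum_ite_eq, if_pos (Finset.mem_univ _), Finset.sum_mul]
  rw [← Finset.sum_add_distrib, ← Finset.sum_add_distrib, Finset.sum_filter]
  refine Finset.sum_congr rfl fun j _ => ?_
  have hs : ∀ s t : ZMod 2, s + t = if s ≠ t then 1 else 0 := by decide
  by_cases h : i = j
  · subst h; simp
  · rw [if_neg h, if_neg h]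
    by_cases h2 : x j ≠ x i
    · rw [if_pos h2]
      have := hs (x j) (x i)
      rw [if_pos h2] at this
      calc _ = (ee i j + 1) * (x j + x i) := by ring
        _ = _ := by rw [this, mul_one]
    · rw [if_neg h2]
      have := hs (x j) (x i)
      rw [if_neg h2] at this
      calc _ = (ee i j + 1) * (x j + x i) := by ring
        _ = _ := by rw [this, mul_zero]

theorem sq_neg_pow {p : ℕ} (hp : p.Prime) (h4 : p % 4 = 3) {m : ℕ} (hm : ¬ p ∣ m) (k : ℕ)
    (h : IsSquare ((((-1) ^ k * m : ℤ)) : ZMod p)) : ee p m + k = 0 := by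
  have two : ∀ t : ZMod 2, t + t = 0 := by decide
  have hm0 : ((m : ℕ) : ZMod p) ≠ 0 := by rwa [Ne, ZMod.natCast_eq_zero_iff]
  rcases Nat.even_or_odd k with hk | hk
  · rw [hk.neg_one_pow, one_mul, Int.cast_natCast] at h
    rw [ee_eq_zero.mpr h, zero_add]
    obtain ⟨l, hl⟩ := hk
    rw [hl]; push_cast; exact two _
  · rw [hk.neg_one_pow] at h
    have h' : IsSquare (-((m : ℕ) : ZMod p)) := by
      push_cast at h
      simpa using h
    rw [ee_eq_one.mpr (not_sq_of_neg hp h4 hm0 h')]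
    obtain ⟨l, hl⟩ := hk
    rw [hl]; push_cast
    have : (2 : ZMod 2) = 0 := by decide
    rw [this, zero_mul, zero_add]
    exact two 1

/-- an integer `= 1` mod `4` whose primes are all `3` mod `4` -/
theorem sign_eq {a : ℤ} {m : ℕ} (ham : a.natAbs = m) (hm : Squarefree m)
    (h4 : ∀ q : ℕ, q.Prime → q ∣ m → q % 4 = 3) (ha4 : a % 4 = 1) :
    a = (-1) ^ m.primeFactors.card * m := by
  have h1 : ∏ p ∈ m.primeFactors, p = m := Nat.prod_primeFactors_of_squarefree hm
  have h2 := prod_mod_four m.primeFactors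
    (fun q hq => h4 q (Nat.prime_of_mem_primeFactors hq) (Nat.dvd_of_mem_primeFactors hq))
  rw [h1] at h2
  rcases Nat.even_or_odd m.primeFactors.card with hk | hk
  · rw [hk.neg_one_pow] at h2 ⊢
    have h3 : ((m : ℕ) : ZMod 4) = ((1 : ℕ) : ZMod 4) := by simpa using h2
    rw [ZMod.natCast_eq_natCast_iff] at h3
    have h5 : m % 4 = 1 := h3
    omega
  · rw [hk.neg_one_pow] at h2 ⊢
    have h3 : ((m : ℕ) : ZMod 4) = ((3 : ℕ) : ZMod 4) := by
      rw [h2]; decide
    rw [ZMod.natCast_eq_natCast_iff] at h3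
    have h5 : m % 4 = 3 := h3
    omega

/-- **`R1 → R2`** when all primes of `d` are `3` mod `4` -/
theorem R2_of_R1_aux {d : ℕ} (hsf : Squarefree d) (h3 : d % 4 = 3)
    (h4 : ∀ q : ℕ, q.Prime → q ∣ d → q % 4 = 3)
    (hR : ∀ a c : ℕ, a * c = d → (∀ p : ℕ, p.Prime → p ∣ c → IsSquare ((a : ℤ) : ZMod p)) →
      (∀ p : ℕ, p.Prime → p ∣ a → IsSquare ((c : ℤ) : ZMod p)) → a = 1 ∨ c = 1)
    (a b : ℤ) (hab : a * b = -d) (ha4 : a % 4 = 1) (hb4 : b % 4 = 1)
    (h1 : ∀ q : ℕ, q.Prime → (q : ℤ) ∣ b → IsSquare (a : ZMod q))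
    (h2 : ∀ q : ℕ, q.Prime → (q : ℤ) ∣ a → IsSquare (b : ZMod q)) : a = 1 ∨ b = 1 := by
  classical
  have hd0 : d ≠ 0 := hsf.ne_zero
  obtain ⟨m, hm⟩ : ∃ m, a.natAbs = m := ⟨_, rfl⟩
  obtain ⟨M, hM⟩ : ∃ M, b.natAbs = M := ⟨_, rfl⟩
  have hmM : m * M = d := by
    rw [← hm, ← hM, ← Int.natAbs_mul, hab]; simp
  have hmd : m ∣ d := ⟨M, hmM.symm⟩
  have hMd : M ∣ d := ⟨m, by rw [mul_comm]; exact hmM.symm⟩
  have hmsf : Squarefree m := hsf.squarefree_of_dvd hmd
  have hMsf : Squarefree M := hsf.squarefree_of_dvd hMd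
  have hm0 : m ≠ 0 := hmsf.ne_zero
  have hM0 : M ≠ 0 := hMsf.ne_zero
  have hcopr : Nat.Coprime m M := by
    rw [← hmM] at hsf
    exact Nat.coprime_of_squarefree_mul hsf
  have ha := sign_eq hm hmsf (fun q hq hqm => h4 q hq (hqm.trans hmd)) ha4
  have hb := sign_eq hM hMsf (fun q hq hqM => h4 q hq (hqM.trans hMd)) hb4
  obtain ⟨P, hP⟩ : ∃ P : Finset ℕ, P = d.primeFactors := ⟨_, rfl⟩
  have hPp : ∀ p ∈ P, p.Prime := fun p hp => Nat.prime_of_mem_primeFactors (hP ▸ hp)
  have hPd : ∀ p ∈ P, p ∣ d := fun p hp => Nat.dvd_of_mem_primeFactors (hP ▸ hp)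
  have hP4 : ∀ p ∈ P, p % 4 = 3 := fun p hp => h4 p (hPp p hp) (hPd p hp)
  have hodd : Odd P.card := by rw [hP]; exact card_odd4 hsf h3 h4
  have hcop : ∀ p ∈ P, ∀ q ∈ P, p ≠ q → ¬ p ∣ q := by
    intro p hp q hq hpq h
    exact hpq ((Nat.prime_dvd_prime_iff_eq (hPp p hp) (hPp q hq)).mp h)
  have hform : ∀ (x : P → ZMod 2) (i : P) (S : Finset ℕ), S ⊆ P →
      (∀ q (hq : q ∈ P), q ∈ S ↔ x ⟨q, hq⟩ ≠ x i) →
      (RM P).transpose.mulVec x i = ee i (∏ q ∈ S, q) + S.card := by
    intro x i S hSP hS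
    rw [RMT_mulVec hPp hP4 hodd]
    obtain ⟨S', h5, h6, h7⟩ := prod_filter_coe P (fun j => x j ≠ x i)
    rw [h7 (fun q => ee i q + 1)]
    have : S' = S := by
      ext q
      constructor
      · intro hq
        exact (hS q (h5 hq)).mpr ((h6 q (h5 hq)).mp hq)
      · intro hq
        exact (h6 q (hSP hq)).mpr ((hS q (hSP hq)).mp hq)
    rw [this, ee_prod (hPp i i.2), Finset.sum_add_distrib]
    · simp
    intro q hq
    apply hcop i i.2 q (hSP hq)
    intro h
    have := (hS q (hSP hq)).mp hq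
    apply this
    congr 1
    exact Subtype.ext h.symm
  have hkT : (RM P).transpose.mulVec
      (fun j : P => if (j : ℕ) ∣ m then (1 : ZMod 2) else 0) = 0 := by
    funext i
    by_cases hi : (i : ℕ) ∣ m
    · have hiM : ¬ (i : ℕ) ∣ M := fun h =>
        (hPp i i.2).one_lt.ne' (Nat.dvd_one.mp (hcopr ▸ Nat.dvd_gcd hi h))
      rw [hform _ i M.primeFactors (hP ▸ Nat.primeFactors_mono hMd hd0),
        Nat.prod_primeFactors_of_squarefree hMsf]
      · apply sq_neg_pow (hPp i i.2) (hP4 i i.2) hiM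
        rw [← hb]
        apply h2 i (hPp i i.2)
        rw [← Int.natAbs_dvd_natAbs, hm]; simpa using hi
      · intro q hq
        simp only [hi, if_true]
        have hqp := hPp q hq
        constructor
        · intro hqc
          have hqc' := Nat.dvd_of_mem_primeFactors hqc
          have : ¬ q ∣ m := fun h => hqp.one_lt.ne' (Nat.dvd_one.mp (hcopr ▸ Nat.dvd_gcd h hqc'))
          simp [this]
        · intro h
          have hna : ¬ q ∣ m := by
            intro h'; simp [h'] at h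
          have hqD := hPd q hq
          rw [← hmM] at hqD
          rcases (Nat.Prime.dvd_mul hqp).mp hqD with h' | h'
          · exact absurd h' hna
          · exact Nat.mem_primeFactors.mpr ⟨hqp, h', hM0⟩
    · have hiM : (i : ℕ) ∣ M := by
        have hqD := hPd i i.2
        rw [← hmM] at hqD
        rcases (Nat.Prime.dvd_mul (hPp i i.2)).mp hqD with h' | h'
        · exact absurd h' hi
        · exact h'
      rw [hform _ i m.primeFactors (hP ▸ Nat.primeFactors_mono hmd hd0),
        Nat.prod_primeFactors_of_squarefree hmsf]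
      · apply sq_neg_pow (hPp i i.2) (hP4 i i.2) hi
        rw [← ha]
        apply h1 i (hPp i i.2)
        rw [← Int.natAbs_dvd_natAbs, hM]; simpa using hiM
      · intro q hq
        simp only [hi, if_false]
        have hqp := hPp q hq
        constructor
        · intro hqa
          simp [Nat.dvd_of_mem_primeFactors hqa]
        · intro h
          have hna : q ∣ m := by
            by_contra h'; simp [h'] at h
          exact Nat.mem_primeFactors.mpr ⟨hqp, hna, hm0⟩
  have hfin := ker_transpose (RM P) ?_ ?_ ?_ (fun x hx => kernel_R1 hP hsf hR x hx) _ hkT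
  · rcases hfin with h | h
    · left
      have hm1 : m = 1 := by
        by_contra hm1
        obtain ⟨p, hp, hpm⟩ := Nat.exists_prime_and_dvd hm1
        have hpP : p ∈ P := hP ▸ Nat.mem_primeFactors.mpr ⟨hp, hpm.trans hmd, hd0⟩
        have := congrFun h ⟨p, hpP⟩
        simp [hpm] at this
      rw [hm1] at hm
      omega
    · right
      have hM1 : M = 1 := by
        by_contra hM1
        obtain ⟨p, hp, hpM⟩ := Nat.exists_prime_and_dvd hM1
        have hpP : p ∈ P := hP ▸ Nat.mem_primeFactors.mpr ⟨hp, hpM.trans hMd, hd0⟩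
        have hpm : ¬ p ∣ m := fun h' =>
          hp.one_lt.ne' (Nat.dvd_one.mp (hcopr ▸ Nat.dvd_gcd h' hpM))
        have := congrFun h ⟨p, hpP⟩
        simp [hpm] at this
      rw [hM1] at hM
      omega
  · intro i j hij
    simp only [RM, if_neg hij, if_neg (Ne.symm hij), add_zero]
    exact ee_rec (hPp i i.2) (hPp j j.2) (hP4 i i.2) (hP4 j j.2) (fun h => hij (Subtype.ext h))
  · intro i
    have := RM_mulVec P 1 i
    simpa [Matrix.mulVec, dotProduct] using this
  · rw [Fintype.card_coe]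
    exact hodd

end Vale.P017.H689
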