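import Vale.Agent.P017.H390.Comp
import Vale.Agent.P017.H689.R12

set_option autoImplicit false

/-!
# `R1`, `R2` for products of two primes, and `R1 → R2`
-/

namespace Vale.Agent.P017.H689

open Vale.Agent.P017.H390

/-- **`R1 → R2`** when all primes of `d` are `3` mod `4` -/
theorem R2_of_R1' {d : ℕ} (hsf : Squarefree d) (h4 : d % 4 = 3)
    (h : ∀ q : ℕ, q.Prime → q ∣ d → q % 4 = 3) (h1 : R1 d) : R2 d :=
  fun a b hab ha hb h2 h3 => Vale.P017.H689.R2_of_R1_aux hsf h4 h h1 a b hab ha hb h2 h3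

lemma fact_pq {p q m M : ℕ} (hp : p.Prime) (hq : q.Prime) (hne : p ≠ q) (h : m * M = p * q) :
    m = 1 ∨ M = 1 ∨ (m = p ∧ M = q) ∨ (m = q ∧ M = p) := by
  have hp0 := hp.pos
  have hq0 := hq.pos
  have hcop : Nat.Coprime p q := (Nat.coprime_primes hp hq).mpr hne
  have h1 : p ∣ m * M := by rw [h]; exact dvd_mul_right _ _
  have h2 : q ∣ m * M := by rw [h]; exact dvd_mul_left _ _
  rcases (hp.dvd_mul).mp h1 with hpm | hpM <;> rcases (hq.dvd_mul).mp h2 with hqm | hqM
  · right; left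
    obtain ⟨t, ht⟩ := hcop.mul_dvd_of_dvd_of_dvd hpm hqm
    have : p * q * (t * M) = p * q * 1 := by
      rw [mul_one]
      calc p * q * (t * M) = (p * q * t) * M := by ring
        _ = p * q := by rw [← ht, h]
    have := Nat.eq_of_mul_eq_mul_left (Nat.mul_pos hp0 hq0) this
    exact Nat.eq_one_of_mul_eq_one_left this
  · right; right; left
    obtain ⟨s, hs⟩ := hpm
    obtain ⟨t, ht⟩ := hqM
    have : p * q * (s * t) = p * q * 1 := by
      rw [mul_one]
      calc p * q * (s * t) = (p * s) * (q * t) := by ring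
        _ = p * q := by rw [← hs, ← ht, h]
    have := Nat.eq_of_mul_eq_mul_left (Nat.mul_pos hp0 hq0) this
    rw [hs, ht, Nat.eq_one_of_mul_eq_one_right this, Nat.eq_one_of_mul_eq_one_left this]
    simp
  · right; right; right
    obtain ⟨s, hs⟩ := hpM
    obtain ⟨t, ht⟩ := hqm
    have : p * q * (s * t) = p * q * 1 := by
      rw [mul_one]
      calc p * q * (s * t) = (q * t) * (p * s) := by ring
        _ = p * q := by rw [← hs, ← ht, h]
    have := Nat.eq_of_mul_eq_mul_left (Nat.mul_pos hp0 hq0) this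
    rw [hs, ht, Nat.eq_one_of_mul_eq_one_right this, Nat.eq_one_of_mul_eq_one_left this]
    simp
  · left
    obtain ⟨t, ht⟩ := hcop.mul_dvd_of_dvd_of_dvd hpM hqM
    have : p * q * (m * t) = p * q * 1 := by
      rw [mul_one]
      calc p * q * (m * t) = m * (p * q * t) := by ring
        _ = p * q := by rw [← ht, h]
    have := Nat.eq_of_mul_eq_mul_left (Nat.mul_pos hp0 hq0) this
    exact Nat.eq_one_of_mul_eq_one_right this

lemma ne_pq {p q : ℕ} (h4 : p * q % 4 = 3) : p ≠ q := by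
  rintro rfl
  have h5 : p % 4 = 0 ∨ p % 4 = 1 ∨ p % 4 = 2 ∨ p % 4 = 3 := by omega
  rw [Nat.mul_mod] at h4
  rcases h5 with h | h | h | h <;> rw [h] at h4 <;> simp at h4

theorem R1_pq {p q : ℕ} (hp : p.Prime) (hq : q.Prime) (h4 : p * q % 4 = 3)
    (hns : ¬ IsSquare ((p : ℤ) : ZMod q)) : R1 (p * q) := by
  intro m M hmM h1 h2
  rcases fact_pq hp hq (ne_pq h4) hmM with h | h | ⟨h, h'⟩ | ⟨h, h'⟩
  · exact Or.inl h
  · exact Or.inr h
  · exfalso
    apply hns
    have := h1 q hq (h' ▸ dvd_rfl)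
    rwa [h] at this
  · exfalso
    apply hns
    have := h2 q hq (h ▸ dvd_rfl)
    rwa [h'] at this

/-- if `x` is a square mod `q` and `x` has absolute value `p`, `x = 1` mod `4`, then `p` is a
square mod `q` (one of `p`, `q` is `1` mod `4`) -/
lemma sq_abs {p q : ℕ} (hq : q.Prime) (h4 : p * q % 4 = 3) {x : ℤ} (hx : x.natAbs = p)
    (hx4 : x % 4 = 1) (hs : IsSquare (x : ZMod q)) : IsSquare ((p : ℤ) : ZMod q) := by
  rcases Int.natAbs_eq x with h | h
  · rw [hx] at h
    rwa [h] at hs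
  · rw [hx] at h
    have hp3 : p % 4 = 3 := by omega
    have hq1 : q % 4 = 1 := by
      rw [Nat.mul_mod, hp3] at h4
      have : q % 4 < 4 := Nat.mod_lt _ (by norm_num)
      interval_cases hq' : q % 4 <;> simp_all
    have := Fact.mk hq
    have hm1 : IsSquare (-1 : ZMod q) := by
      rw [ZMod.exists_sq_eq_neg_one_iff]; omega
    have h2 : ((p : ℤ) : ZMod q) = (-1) * ((x : ℤ) : ZMod q) := by
      rw [h]; push_cast; ring
    rw [h2]
    exact hm1.mul hs

theorem R2_pq {p q : ℕ} (hp : p.Prime) (hq : q.Prime) (h4 : p * q % 4 = 3)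
    (hns : ¬ IsSquare ((p : ℤ) : ZMod q)) : R2 (p * q) := by
  intro a b hab ha4 hb4 h1 h2
  have hmM : a.natAbs * b.natAbs = p * q := by
    rw [← Int.natAbs_mul, hab]; simp [Int.natAbs_mul]
  rcases fact_pq hp hq (ne_pq h4) hmM with h | h | ⟨h, h'⟩ | ⟨h, h'⟩
  · left; omega
  · right; omega
  · exfalso
    apply hns
    apply sq_abs hq h4 h ha4
    apply h1 q hq
    rw [← Int.natAbs_dvd_natAbs, h']; simp
  · exfalso
    apply hns
    apply sq_abs hq h4 h' hb4
    apply h2 q hq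
    rw [← Int.natAbs_dvd_natAbs, h]; simp

end Vale.Agent.P017.H689
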