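import Vale.Agent.P017.H689.R12
import Vale.Agent.P017.H766.Comp

set_option autoImplicit false

namespace Vale.P017.H689

open Vale.Agent.P017.H766

/-- **`R1 → R2`** when all primes of `d` are `3` mod `4` -/
theorem R2_of_R1 {d : ℕ} (hsf : Squarefree d) (h3 : d % 4 = 3)
    (h4 : ∀ q : ℕ, q.Prime → q ∣ d → q % 4 = 3) (h : R1 d) : R2 d :=
  fun a b hab ha hb h1 h2 => R2_of_R1_aux hsf h3 h4 h a b hab ha hb h1 h2

end Vale.P017.H689
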