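import Mathlib

set_option autoImplicit false

/-!
# The Redei matrix: the lemma for `hB`

`d = a c` squarefree, all primes of `d` are `3` mod `8`, `d = 3` mod `8`, and the Redei matrix of
`d` has the smallest possible kernel. Then `a` is a square mod the primes of `c` and `c` is a
non-square mod the primes of `a` only for `a = 1`.
-/

namespace Vale.P017.H689

open Finset

/-- linear algebra over `ZMod 2` -/
theorem ker_lemma {ι : Type*} [Fintype ι] [DecidableEq ι] (M : Matrix ι ι (ZMod 2))
    (hrec : ∀ i j, i ≠ j → M i j + M j i = 1) (hrow : ∀ i, ∑ j, M i j = 0)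
    (hodd : Odd (Fintype.card ι))
    (hker : ∀ x : ι → ZMod 2, M.mulVec x = 0 → x = 0 ∨ x = 1)
    (x : ι → ZMod 2) (hx : M.mulVec x = x) : x = 0 := by
  have two : ∀ t : ZMod 2, t + t = 0 := by decide
  have hz : ∀ c : ZMod 2, c = 0 ∨ c = 1 := by decide
  have hcard : (Fintype.card ι : ZMod 2) = 1 := by
    obtain ⟨k, hk⟩ := hodd
    rw [hk]; push_cast
    have : (2 : ZMod 2) = 0 := by decide
    rw [this]; ring
  have htr : ∀ y : ι → ZMod 2, ∀ i, M.transpose.mulVec y i = M.mulVec y i + (∑ j, y j) + y i := by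
    intro y i
    have h1 : ∀ j, M j i = M i j + 1 + (if j = i then 1 else 0) := by
      intro j
      by_cases h : j = i
      · subst h
        simp [add_assoc, two 1]
      · have := hrec i j (fun h' => h h'.symm)
        rw [if_neg h, add_zero]
        have h3 : M j i = M i j + (M i j + M j i) := by
          rw [← add_assoc, two, zero_add]
        rw [h3, this]
    simp only [Matrix.mulVec, dotProduct, Matrix.transpose_apply]
    rw [Finset.sum_congr rfl (fun j _ => by rw [h1 j])]
    simp only [add_mul, one_mul, ite_mul, zero_mul, Finset.sum_add_distrib]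
    simp
  have hone : M.mulVec 1 = 0 := by
    funext i
    simpa [Matrix.mulVec, dotProduct] using hrow i
  have honeT : M.transpose.mulVec 1 = 0 := by
    funext i
    rw [htr, hone]
    simp [hcard, two 1]
  have hcol : ∀ j, ∑ i, M i j = 0 := by
    intro j
    have := congrFun honeT j
    simpa [Matrix.mulVec, dotProduct] using this
  have hsum : ∑ i, x i = 0 := by
    have h1 : ∑ i, x i = ∑ i, M.mulVec x i := by rw [hx]
    rw [h1]
    simp only [Matrix.mulVec, dotProduct]
    rw [Finset.sum_comm]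
    refine Finset.sum_eq_zero fun j _ => ?_
    rw [← Finset.sum_mul, hcol, zero_mul]
  have hxT : M.transpose.mulVec x = 0 := by
    funext i
    rw [htr, hx, hsum, add_zero]
    exact two _
  -- dimensions
  have hd1 : Module.finrank (ZMod 2) (LinearMap.ker M.mulVecLin) ≤ 1 := by
    rw [finrank_le_one_iff]
    refine ⟨⟨1, by simpa using hone⟩, fun w => ?_⟩
    obtain ⟨w, hw⟩ := w
    rcases hker w (by simpa using hw) with h | h
    · exact ⟨0, by ext1; simp [h]⟩
    · exact ⟨1, by ext1; simp [h]⟩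
  have hd2 : Module.finrank (ZMod 2) (LinearMap.ker M.transpose.mulVecLin) ≤ 1 := by
    have e1 := LinearMap.finrank_range_add_finrank_ker M.mulVecLin
    have e2 := LinearMap.finrank_range_add_finrank_ker M.transpose.mulVecLin
    have e3 : Module.finrank (ZMod 2) (LinearMap.range M.transpose.mulVecLin)
        = Module.finrank (ZMod 2) (LinearMap.range M.mulVecLin) := Matrix.rank_transpose M
    omega
  rw [finrank_le_one_iff] at hd2
  obtain ⟨v, hv⟩ := hd2
  by_contra hx0
  have hall : ∀ w : LinearMap.ker M.transpose.mulVecLin, w ≠ 0 → w = v := by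
    intro w hw
    obtain ⟨c, hc⟩ := hv w
    rcases hz c with h | h
    · exact absurd (by rw [← hc, h, zero_smul]) hw
    · rw [← hc, h, one_smul]
  have hne : Nonempty ι := by
    rw [← Fintype.card_pos_iff]
    exact hodd.pos
  have w1 : (⟨x, by rw [LinearMap.mem_ker, Matrix.mulVecLin_apply]; exact hxT⟩ :
      LinearMap.ker M.transpose.mulVecLin) = v := by
    apply hall
    intro h
    exact hx0 (congrArg Subtype.val h)
  have w2 : (⟨1, by rw [LinearMap.mem_ker, Matrix.mulVecLin_apply]; exact honeT⟩ :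
      LinearMap.ker M.transpose.mulVecLin) = v := by
    apply hall
    intro h
    have := congrArg Subtype.val h
    exact one_ne_zero this
  have hx1 : x = 1 := congrArg Subtype.val (w1.trans w2.symm)
  rw [hx1] at hsum
  simp [hcard] at hsum

/-- the additive quadratic character -/
noncomputable def ee (p a : ℕ) : ZMod 2 := by
  classical exact if IsSquare ((a : ℕ) : ZMod p) then 0 else 1

theorem ee_eq_zero {p a : ℕ} : ee p a = 0 ↔ IsSquare ((a : ℕ) : ZMod p) := by
  classical
  unfold ee
  by_cases h : IsSquare ((a : ℕ) : ZMod p)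
  · simp [h]
  · simp [h]

theorem ee_eq_one {p a : ℕ} : ee p a = 1 ↔ ¬ IsSquare ((a : ℕ) : ZMod p) := by
  classical
  unfold ee
  by_cases h : IsSquare ((a : ℕ) : ZMod p)
  · simp [h]
  · simp [h]

theorem ee_one {p : ℕ} : ee p 1 = 0 := by
  rw [ee_eq_zero]; simp

theorem ee_mul {p a b : ℕ} (hp : p.Prime) (ha : ¬ p ∣ a) (hb : ¬ p ∣ b) :
    ee p (a * b) = ee p a + ee p b := by
  have := Fact.mk hp
  have ha0 : ((a : ℤ) : ZMod p) ≠ 0 := by
    push_cast
    rwa [Ne, ZMod.natCast_eq_zero_iff]
  have hb0 : ((b : ℤ) : ZMod p) ≠ 0 := by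
    push_cast
    rwa [Ne, ZMod.natCast_eq_zero_iff]
  have hab0 : (((a * b : ℕ) : ℤ) : ZMod p) ≠ 0 := by
    push_cast at ha0 hb0 ⊢
    exact mul_ne_zero ha0 hb0
  have key : ∀ c : ℕ, ((c : ℤ) : ZMod p) ≠ 0 →
      (ee p c = 0 ∧ legendreSym p c = 1) ∨ (ee p c = 1 ∧ legendreSym p c = -1) := by
    intro c hc
    rcases legendreSym.eq_one_or_neg_one p hc with h | h
    · left
      refine ⟨?_, h⟩
      rw [ee_eq_zero]
      have := (legendreSym.eq_one_iff p hc).mp h
      simpa using this
    · right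
      refine ⟨?_, h⟩
      rw [ee_eq_one]
      have := (legendreSym.eq_neg_one_iff p).mp h
      simpa using this
  have hm : legendreSym p ((a * b : ℕ) : ℤ) = legendreSym p a * legendreSym p b := by
    push_cast
    exact legendreSym.mul p _ _
  have t11 : (1 : ZMod 2) + 1 = 0 := by decide
  rcases key a ha0 with ⟨h1, h2⟩ | ⟨h1, h2⟩ <;> rcases key b hb0 with ⟨h3, h4⟩ | ⟨h3, h4⟩ <;>
    rcases key (a * b) hab0 with ⟨h5, h6⟩ | ⟨h5, h6⟩ <;> rw [h1, h3, h5] <;>
    rw [h2, h4, h6] at hm <;> simp at hm ⊢ <;> exact t11.symm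

theorem not_dvd_prod {p : ℕ} (hp : p.Prime) {S : Finset ℕ} (hS : ∀ q ∈ S, ¬ p ∣ q) :
    ¬ p ∣ ∏ q ∈ S, q := by
  intro h
  obtain ⟨q, hq, hpq⟩ := (Prime.dvd_finsetProd_iff hp.prime _).mp h
  exact hS q hq hpq

theorem ee_prod {p : ℕ} (hp : p.Prime) (S : Finset ℕ) :
    (∀ q ∈ S, ¬ p ∣ q) → ee p (∏ q ∈ S, q) = ∑ q ∈ S, ee p q := by
  classical
  induction S using Finset.induction_on with
  | empty => intro _; simpa using ee_one
  | insert a S ha ih =>
    intro hS
    rw [Finset.prod_insert ha, Finset.sum_insert ha,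
      ee_mul hp (hS a (Finset.mem_insert_self _ _))
        (not_dvd_prod hp fun q hq => hS q (Finset.mem_insert_of_mem hq)),
      ih fun q hq => hS q (Finset.mem_insert_of_mem hq)]

theorem ee_rec {p q : ℕ} (hp : p.Prime) (hq : q.Prime) (hp4 : p % 4 = 3) (hq4 : q % 4 = 3)
    (hpq : p ≠ q) : ee p q + ee q p = 1 := by
  have := Fact.mk hp
  have := Fact.mk hq
  have h := ZMod.exists_sq_eq_prime_iff_of_mod_four_eq_three (p := p) (q := q) hp4 hq4 hpq
  by_cases h1 : IsSquare ((q : ℕ) : ZMod p)
  · rw [ee_eq_zero.mpr h1, ee_eq_one.mpr (h.mp h1), zero_add]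
  · have h2 : IsSquare ((p : ℕ) : ZMod q) := by
      by_contra h3
      exact h1 (h.mpr h3)
    rw [ee_eq_one.mpr h1, ee_eq_zero.mpr h2, add_zero]

theorem card_odd {D : ℕ} (hsf : Squarefree D) (hD : D % 8 = 3)
    (h8 : ∀ p : ℕ, p.Prime → p ∣ D → p % 8 = 3) : Odd D.primeFactors.card := by
  have h1 : ∏ p ∈ D.primeFactors, p = D := Nat.prod_primeFactors_of_squarefree hsf
  have h2 : ((D : ℕ) : ZMod 8) = 3 ^ D.primeFactors.card := by
    conv_lhs => rw [← h1]
    push_cast
    rw [Finset.prod_congr rfl (g := fun _ => (3 : ZMod 8)), Finset.prod_const]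
    intro p hp
    have := h8 p (Nat.prime_of_mem_primeFactors hp) (Nat.dvd_of_mem_primeFactors hp)
    have h3 : ((p : ℕ) : ZMod 8) = ((3 : ℕ) : ZMod 8) := by
      rw [ZMod.natCast_eq_natCast_iff]; exact this
    simpa using h3
  have h3 : ((D : ℕ) : ZMod 8) = 3 := by
    have h3 : ((D : ℕ) : ZMod 8) = ((3 : ℕ) : ZMod 8) := by
      rw [ZMod.natCast_eq_natCast_iff]; exact hD
    simpa using h3
  by_contra hodd
  rw [Nat.not_odd_iff_even] at hodd
  obtain ⟨k, hk⟩ := hodd
  rw [h3, hk, ← two_mul, pow_mul] at h2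
  have h9 : (3 : ZMod 8) ^ 2 = 1 := by decide
  rw [h9, one_pow] at h2
  exact absurd h2 (by decide)

/-- the Redei matrix -/
noncomputable def RM (P : Finset ℕ) : Matrix P P (ZMod 2) := fun i j =>
  (if i = j then 0 else ee i j) + (if i = j then ∑ k : P, (if i = k then 0 else ee i k) else 0)

theorem RM_mulVec (P : Finset ℕ) (x : P → ZMod 2) (i : P) :
    (RM P).mulVec x i = ∑ j ∈ Finset.univ.filter (fun j => x j ≠ x i), ee i j := by
  simp only [Matrix.mulVec, dotProduct, RM, add_mul, Finset.sum_add_distrib, ite_mul, zero_mul]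
  rw [Finset.sum_ite_eq, if_pos (Finset.mem_univ _), Finset.sum_mul, ← Finset.sum_add_distrib,
    Finset.sum_filter]
  refine Finset.sum_congr rfl fun j _ => ?_
  by_cases h : i = j
  · subst h; simp
  · rw [if_neg h, if_neg h, ← mul_add]
    have : ∀ s t : ZMod 2, s + t = if s ≠ t then 1 else 0 := by decide
    rw [this]
    by_cases h2 : x j ≠ x i
    · rw [if_pos h2, if_pos h2, mul_one]
    · rw [if_neg h2, if_neg h2, mul_zero]

theorem prod_filter_coe (P : Finset ℕ) (f : P → Prop) [DecidablePred f] :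
    ∃ S : Finset ℕ, S ⊆ P ∧ (∀ q (hq : q ∈ P), q ∈ S ↔ f ⟨q, hq⟩) ∧
      (∀ g : ℕ → ZMod 2, ∑ j ∈ Finset.univ.filter f, g j = ∑ q ∈ S, g q) := by
  classical
  refine ⟨(Finset.univ.filter f).map (Function.Embedding.subtype _), ?_, ?_, ?_⟩
  · intro q hq
    simp only [Finset.mem_map, Finset.mem_filter, Finset.mem_univ, true_and] at hq
    obtain ⟨a, _, rfl⟩ := hq
    exact a.2
  · intro q hq
    simp only [Finset.mem_map, Finset.mem_filter, Finset.mem_univ, true_and]
    constructor
    · rintro ⟨a, ha, rfl⟩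
      exact ha
    · intro h
      exact ⟨⟨q, hq⟩, h, rfl⟩
  · intro g
    rw [Finset.sum_map]
    rfl

theorem key_nat {D : ℕ} (hsf : Squarefree D) (hD : D % 8 = 3)
    (h8 : ∀ p : ℕ, p.Prime → p ∣ D → p % 8 = 3)
    (hR : ∀ a c : ℕ, D = a * c → (∀ p : ℕ, p.Prime → p ∣ c → IsSquare ((a : ℕ) : ZMod p)) →
      (∀ p : ℕ, p.Prime → p ∣ a → IsSquare ((c : ℕ) : ZMod p)) → a = 1 ∨ c = 1)
    (a c : ℕ) (hac : D = a * c)
    (h1 : ∀ p : ℕ, p.Prime → p ∣ c → IsSquare ((a : ℕ) : ZMod p))
    (h2 : ∀ p : ℕ, p.Prime → p ∣ a → ¬ IsSquare ((c : ℕ) : ZMod p)) : a = 1 := by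
  classical
  have hD0 : D ≠ 0 := hsf.ne_zero
  set P := D.primeFactors with hP
  have hPp : ∀ p ∈ P, p.Prime := fun p hp => Nat.prime_of_mem_primeFactors hp
  have hPd : ∀ p ∈ P, p ∣ D := fun p hp => Nat.dvd_of_mem_primeFactors hp
  have hprod : ∏ p ∈ P, p = D := Nat.prod_primeFactors_of_squarefree hsf
  have hcop : ∀ p ∈ P, ∀ q ∈ P, p ≠ q → ¬ p ∣ q := by
    intro p hp q hq hpq h
    exact hpq ((Nat.prime_dvd_prime_iff_eq (hPp p hp) (hPp q hq)).mp h)
  -- the general formula
  have hform : ∀ (x : P → ZMod 2) (i : P) (S : Finset ℕ), S ⊆ P →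
      (∀ q (hq : q ∈ P), q ∈ S ↔ x ⟨q, hq⟩ ≠ x i) →
      (RM P).mulVec x i = ee i (∏ q ∈ S, q) := by
    intro x i S hSP hS
    rw [RM_mulVec]
    obtain ⟨S', h3, h4, h5⟩ := prod_filter_coe P (fun j => x j ≠ x i)
    rw [h5 (fun q => ee i q)]
    have : S' = S := by
      ext q
      constructor
      · intro hq
        exact (hS q (h3 hq)).mpr ((h4 q (h3 hq)).mp hq)
      · intro hq
        exact (h4 q (hSP hq)).mpr ((hS q (hSP hq)).mp hq)
    rw [this, ee_prod (hPp i i.2)]
    intro q hq
    apply hcop i i.2 q (hSP hq)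
    intro h
    have := (hS q (hSP hq)).mp hq
    apply this
    congr 1
    exact Subtype.ext h.symm
  have hz2 : ∀ s : ZMod 2, s = 0 ∨ s = 1 := by decide
  -- the vector of a factorisation
  have hx0 : (fun j : P => if (j : ℕ) ∣ a then (1 : ZMod 2) else 0) = 0 := by
    apply ker_lemma (RM P)
    · intro i j hij
      simp only [RM, if_neg hij, if_neg (Ne.symm hij), add_zero]
      have hi := h8 i (hPp i i.2) (hPd i i.2)
      have hj := h8 j (hPp j j.2) (hPd j j.2)
      exact ee_rec (hPp i i.2) (hPp j j.2) (by omega) (by omega) (fun h => hij (Subtype.ext h))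
    · intro i
      have := RM_mulVec P 1 i
      simpa [Matrix.mulVec, dotProduct] using this
    · rw [Fintype.card_coe]
      exact card_odd hsf hD h8
    · -- the kernel
      intro x hx
      set S := P.filter (fun q => ∃ hq : q ∈ P, x ⟨q, hq⟩ = 1) with hS
      set S' := P.filter (fun q => ¬ ∃ hq : q ∈ P, x ⟨q, hq⟩ = 1) with hS'
      have hSm : ∀ q (hq : q ∈ P), q ∈ S ↔ x ⟨q, hq⟩ = 1 := by
        intro q hq
        rw [hS, Finset.mem_filter]
        constructor
        · rintro ⟨_, _, h⟩; exact h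
        · intro h; exact ⟨hq, hq, h⟩
      have hSm' : ∀ q (hq : q ∈ P), q ∈ S' ↔ x ⟨q, hq⟩ = 0 := by
        intro q hq
        rw [hS', Finset.mem_filter]
        constructor
        · rintro ⟨_, h⟩
          rcases hz2 (x ⟨q, hq⟩) with h0 | h0
          · exact h0
          · exact absurd ⟨hq, h0⟩ h
        · intro h
          refine ⟨hq, ?_⟩
          rintro ⟨_, h'⟩
          rw [h] at h'
          exact absurd h' (by decide)
      have hmul : D = (∏ q ∈ S, q) * ∏ q ∈ S', q := by
        rw [hS, hS', Finset.prod_filter_mul_prod_filter_not, hprod]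
      have hmem : ∀ (U : Finset ℕ), U ⊆ P → ∀ p : ℕ, p.Prime → p ∣ ∏ q ∈ U, q → p ∈ U := by
        intro U hU p hp hpd
        obtain ⟨q, hq, hpq⟩ := (Prime.dvd_finsetProd_iff hp.prime _).mp hpd
        rwa [(Nat.prime_dvd_prime_iff_eq hp (hPp q (hU hq))).mp hpq]
      have hSP : S ⊆ P := Finset.filter_subset _ _
      have hSP' : S' ⊆ P := Finset.filter_subset _ _
      have g1 : ∀ p : ℕ, p.Prime → p ∣ ∏ q ∈ S', q →
          IsSquare ((∏ q ∈ S, q : ℕ) : ZMod p) := by
        intro p hp hpd
        have hpS := hmem S' hSP' p hp hpd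
        have hpP := hSP' hpS
        have hxp := (hSm' p hpP).mp hpS
        have := hform x ⟨p, hpP⟩ S hSP (by
          intro q hq
          rw [hSm q hq, hxp]
          rcases hz2 (x ⟨q, hq⟩) with h0 | h0 <;> simp [h0])
        rw [hx] at this
        rw [← ee_eq_zero]
        exact this.symm
      have g2 : ∀ p : ℕ, p.Prime → p ∣ ∏ q ∈ S, q →
          IsSquare ((∏ q ∈ S', q : ℕ) : ZMod p) := by
        intro p hp hpd
        have hpS := hmem S hSP p hp hpd
        have hpP := hSP hpS
        have hxp := (hSm p hpP).mp hpS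
        have := hform x ⟨p, hpP⟩ S' hSP' (by
          intro q hq
          rw [hSm' q hq, hxp]
          rcases hz2 (x ⟨q, hq⟩) with h0 | h0 <;> simp [h0])
        rw [hx] at this
        rw [← ee_eq_zero]
        exact this.symm
      rcases hR _ _ hmul g1 g2 with h | h
      · left
        funext ⟨q, hq⟩
        rcases hz2 (x ⟨q, hq⟩) with h0 | h0
        · exact h0
        · exfalso
          have hqS := (hSm q hq).mpr h0
          have := Finset.dvd_prod_of_mem (fun q : ℕ => q) hqS
          rw [h] at this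
          exact (hPp q hq).one_lt.ne' (Nat.dvd_one.mp this)
      · right
        funext ⟨q, hq⟩
        rcases hz2 (x ⟨q, hq⟩) with h0 | h0
        · exfalso
          have hqS := (hSm' q hq).mpr h0
          have := Finset.dvd_prod_of_mem (fun q : ℕ => q) hqS
          rw [h] at this
          exact (hPp q hq).one_lt.ne' (Nat.dvd_one.mp this)
        · exact h0
    · -- `M x = x`
      have ha0 : a ≠ 0 := by rintro rfl; simp at hac; exact hD0 hac
      have hc0 : c ≠ 0 := by rintro rfl; simp at hac; exact hD0 hac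
      have hadvd : a ∣ D := ⟨c, hac⟩
      have hcdvd : c ∣ D := ⟨a, by rw [hac, mul_comm]⟩
      have hasf : Squarefree a := hsf.squarefree_of_dvd hadvd
      have hcsf : Squarefree c := hsf.squarefree_of_dvd hcdvd
      have hcopr : Nat.Coprime a c := by
        rw [hac] at hsf
        exact Nat.coprime_of_squarefree_mul hsf
      funext i
      by_cases hi : (i : ℕ) ∣ a
      · rw [hform _ i c.primeFactors (Nat.primeFactors_mono hcdvd hD0), 
          Nat.prod_primeFactors_of_squarefree hcsf]
        · simp only [hi, if_true]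
          rw [ee_eq_one]
          exact h2 i (hPp i i.2) hi
        · intro q hq
          simp only [hi, if_true]
          have hqp := hPp q hq
          constructor
          · intro hqc
            have hqc' := Nat.dvd_of_mem_primeFactors hqc
            have : ¬ q ∣ a := fun h => hqp.one_lt.ne' (Nat.dvd_one.mp (hcopr ▸ Nat.dvd_gcd h hqc'))
            simp [this]
          · intro h
            have hna : ¬ q ∣ a := by
              intro h'; simp [h'] at h
            have hqD := hPd q hq
            rw [hac] at hqD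
            rcases (Nat.Prime.dvd_mul hqp).mp hqD with h' | h'
            · exact absurd h' hna
            · exact Nat.mem_primeFactors.mpr ⟨hqp, h', hc0⟩
      · rw [hform _ i a.primeFactors (Nat.primeFactors_mono hadvd hD0),
          Nat.prod_primeFactors_of_squarefree hasf]
        · simp only [hi, if_false]
          rw [ee_eq_zero]
          apply h1 i (hPp i i.2)
          have hqD := hPd i i.2
          rw [hac] at hqD
          rcases (Nat.Prime.dvd_mul (hPp i i.2)).mp hqD with h' | h'
          · exact absurd h' hi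
          · exact h'
        · intro q hq
          simp only [hi, if_false]
          have hqp := hPp q hq
          constructor
          · intro hqa
            simp [Nat.dvd_of_mem_primeFactors hqa]
          · intro h
            have hna : q ∣ a := by
              by_contra h'; simp [h'] at h
            exact Nat.mem_primeFactors.mpr ⟨hqp, hna, ha0⟩
  by_contra ha1
  obtain ⟨p, hp, hpa⟩ := Nat.exists_prime_and_dvd ha1
  have hpP : p ∈ P := Nat.mem_primeFactors.mpr ⟨hp, hpa.trans ⟨c, hac⟩, hD0⟩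
  have := congrFun hx0 ⟨p, hpP⟩
  simp [hpa] at this

/-- the lemma for `hB` (integer form) -/
theorem key_B {d : ℤ} (hd0 : 0 < d) (hsf : Squarefree d) (hmod : d % 120 = 83 ∨ d % 120 = 107)
    (h8 : ∀ p : ℕ, p.Prime → (p : ℤ) ∣ d → p % 8 = 3)
    (hR : ∀ a c : ℤ, 0 < a → 0 < c → d = a * c →
      (∀ p : ℕ, p.Prime → (p : ℤ) ∣ c → IsSquare ((a : ℤ) : ZMod p)) →
      (∀ p : ℕ, p.Prime → (p : ℤ) ∣ a → IsSquare ((c : ℤ) : ZMod p)) → a = 1 ∨ c = 1)
    (a c : ℤ) (ha : 0 < a) (hc : 0 < c) (hac : d = a * c)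
    (h1 : ∀ p : ℕ, p.Prime → (p : ℤ) ∣ c → IsSquare ((a : ℤ) : ZMod p))
    (h2 : ∀ p : ℕ, p.Prime → (p : ℤ) ∣ a → ¬ IsSquare ((c : ℤ) : ZMod p)) : a = 1 := by
  lift d to ℕ using hd0.le
  lift a to ℕ using ha.le
  lift c to ℕ using hc.le
  have hac' : d = a * c := by exact_mod_cast hac
  have := key_nat (D := d) (by rwa [Int.squarefree_natCast] at hsf) (by omega)
    (fun p hp hpd => h8 p hp (by exact_mod_cast hpd)) ?_ a c hac' ?_ ?_
  · exact_mod_cast this
  · intro a' c' h h3 h4
    have ha' : 0 < a' := by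
      rcases Nat.eq_zero_or_pos a' with h0 | h0
      · rw [h0, zero_mul] at h; omega
      · exact h0
    have hc' : 0 < c' := by
      rcases Nat.eq_zero_or_pos c' with h0 | h0
      · rw [h0, mul_zero] at h; omega
      · exact h0
    rcases hR a' c' (by exact_mod_cast ha') (by exact_mod_cast hc') (by exact_mod_cast h)
      (fun p hp hpd => by simpa using h3 p hp (by exact_mod_cast hpd))
      (fun p hp hpd => by simpa using h4 p hp (by exact_mod_cast hpd)) with h5 | h5
    · left; exact_mod_cast h5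
    · right; exact_mod_cast h5
  · intro p hp hpd
    simpa using h1 p hp (by exact_mod_cast hpd)
  · intro p hp hpd
    simpa using h2 p hp (by exact_mod_cast hpd)

end Vale.P017.H689
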