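import Vale.Agent.P017.H689.R12G

set_option autoImplicit false

/-!
# The Redei matrix for `d = 1` mod `4`

`D = -4d`. The `n × (n + 1)` matrix `[M | ε(2)]` has the kernel `{0, (1, 0)}` under the first
condition; the second condition says that the transposed matrix has the kernel `0`.
-/

namespace Vale.P017.H689

open Finset

/-- linear algebra over `ZMod 2` -/
theorem ker_transpose_ext {ι : Type*} [Fintype ι] [DecidableEq ι]
    (M : Matrix ι ι (ZMod 2)) (e : ι → ZMod 2)
    (hker : ∀ (x : ι → ZMod 2) (s : ZMod 2), (∀ i, M.mulVec x i + s * e i = 0) →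
      s = 0 ∧ (x = 0 ∨ x = 1))
    (y : ι → ZMod 2) (hy : M.transpose.mulVec y = 0) (hy2 : ∑ i, y i * e i = 0) : y = 0 := by
  have hz : ∀ c : ZMod 2, c = 0 ∨ c = 1 := by decide
  obtain ⟨A, hA⟩ : ∃ A : Matrix ι (Option ι) (ZMod 2),
      A = Matrix.of (fun i o => o.elim (e i) (fun j => M i j)) := ⟨_, rfl⟩
  have hA1 : ∀ (w : Option ι → ZMod 2) i, A.mulVec w i
      = M.mulVec (fun j => w (some j)) i + w none * e i := by
    intro w i
    simp only [Matrix.mulVec, dotProduct, Fintype.sum_option, hA, Matrix.of_apply, Option.elim]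
    ring
  have hd1 : Module.finrank (ZMod 2) (LinearMap.ker A.mulVecLin) ≤ 1 := by
    rw [finrank_le_one_iff]
    by_cases h1 : M.mulVec 1 = 0
    · refine ⟨⟨fun o => o.elim 0 (fun _ => 1), ?_⟩, fun w => ?_⟩
      · rw [LinearMap.mem_ker, Matrix.mulVecLin_apply]
        funext i
        rw [hA1]
        have := congrFun h1 i
        simp only [zero_mul, add_zero, Option.elim]
        exact this
      · obtain ⟨w, hw⟩ := w
        rw [LinearMap.mem_ker, Matrix.mulVecLin_apply] at hw
        obtain ⟨h2, h3⟩ := hker (fun j => w (some j)) (w none) (fun i => by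
          rw [← hA1, hw]; rfl)
        rcases h3 with h3 | h3
        · refine ⟨0, ?_⟩
          ext o
          rcases o with _ | j
          · simp [h2]
          · have := congrFun h3 j
            simpa using this.symm
        · refine ⟨1, ?_⟩
          ext o
          rcases o with _ | j
          · simp [h2]
          · have := congrFun h3 j
            simpa using this.symm
    · refine ⟨0, fun w => ?_⟩
      obtain ⟨w, hw⟩ := w
      rw [LinearMap.mem_ker, Matrix.mulVecLin_apply] at hw
      obtain ⟨h2, h3⟩ := hker (fun j => w (some j)) (w none) (fun i => by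
        rw [← hA1, hw]; rfl)
      rcases h3 with h3 | h3
      · refine ⟨0, ?_⟩
        ext o
        rcases o with _ | j
        · simp [h2]
        · have := congrFun h3 j
          simpa using this.symm
      · exfalso
        apply h1
        funext i
        have := congrFun hw i
        rw [hA1, h3, h2, zero_mul, add_zero] at this
        exact this
  have hd2 : Module.finrank (ZMod 2) (LinearMap.ker A.transpose.mulVecLin) = 0 := by
    have e1 := LinearMap.finrank_range_add_finrank_ker A.mulVecLin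
    have e2 := LinearMap.finrank_range_add_finrank_ker A.transpose.mulVecLin
    have e3 : Module.finrank (ZMod 2) (LinearMap.range A.transpose.mulVecLin)
        = Module.finrank (ZMod 2) (LinearMap.range A.mulVecLin) := Matrix.rank_transpose A
    simp only [Module.finrank_fintype_fun_eq_card, Fintype.card_option] at e1 e2
    omega
  rw [Submodule.finrank_eq_zero] at hd2
  have hmem : y ∈ LinearMap.ker A.transpose.mulVecLin := by
    rw [LinearMap.mem_ker, Matrix.mulVecLin_apply]
    funext o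
    rcases o with _ | j
    · simp only [Matrix.mulVec, dotProduct, Matrix.transpose_apply, hA, Matrix.of_apply,
        Option.elim]
      exact (Finset.sum_congr rfl fun i _ => mul_comm _ _).trans hy2
    · have := congrFun hy j
      simpa [Matrix.mulVec, dotProduct, Matrix.transpose_apply, hA] using this
  rw [hd2] at hmem
  exact (Submodule.mem_bot _).mp hmem

theorem filter_card_even {D : ℕ} (hsf : Squarefree D) (hD : D % 4 = 1) :
    Even (D.primeFactors.filter (fun q => q % 4 = 3)).card := by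
  have h1 : ∏ p ∈ D.primeFactors, p = D := Nat.prod_primeFactors_of_squarefree hsf
  have h2 := prod_mod_four' D.primeFactors (by
    intro q hq
    have hqD := Nat.dvd_of_mem_primeFactors hq
    rcases (Nat.prime_of_mem_primeFactors hq).eq_two_or_odd with h | h
    · rw [h] at hqD; omega
    · exact h)
  rw [h1] at h2
  have h3 : ((D : ℕ) : ZMod 4) = ((1 : ℕ) : ZMod 4) := by
    rw [ZMod.natCast_eq_natCast_iff]; exact hD
  rw [h3] at h2
  by_contra hodd
  rw [Nat.not_even_iff_odd] at hodd
  rw [hodd.neg_one_pow] at h2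
  exact absurd h2 (by decide)

/-- the formula for the transposed matrix, an even number of primes `3` mod `4` -/
theorem RMT_mulVec_even {P : Finset ℕ} (hP : ∀ p ∈ P, p.Prime) (h2 : ∀ p ∈ P, p % 2 = 1)
    (heven : Even (P.filter (fun q => q % 4 = 3)).card) (x : P → ZMod 2) (i : P) :
    (RM P).transpose.mulVec x i
      = ∑ j ∈ Finset.univ.filter (fun j => x j ≠ x i), (ee i j + rc i j)
        + (if (i : ℕ) % 4 = 3 then x i else 0) := by
  have two : ∀ t : ZMod 2, t + t = 0 := by decide
  have hrec : ∀ j : P, i ≠ j → ee j i = ee i j + rc i j := by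
    intro j hij
    have := ee_rec' (hP i i.2) (hP j j.2) (h2 i i.2) (h2 j j.2) (fun h => hij (Subtype.ext h))
    unfold rc
    rw [← this, ← add_assoc, two, zero_add]
  have hentry : ∀ j : P, (RM P) j i = (if i = j then 0 else (ee i j + rc i j))
      + (if i = j then ∑ k : P, (if i = k then 0 else (ee i k + rc i k)) else 0)
      + (if i = j then (if (i : ℕ) % 4 = 3 then 1 else 0) else 0) := by
    intro j
    simp only [RM]
    by_cases h : i = j
    · subst h
      simp only [if_true, zero_add]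
      have h1 : ∀ k : P, (if i = k then (0 : ZMod 2) else (ee i k + rc i k))
          = (if i = k then 0 else ee i k) + (rc i k + if i = k then rc i i else 0) := by
        intro k
        by_cases h2 : i = k
        · subst h2; simp [two]
        · simp [h2]
      rw [Finset.sum_congr rfl (fun k _ => h1 k), Finset.sum_add_distrib, Finset.sum_add_distrib]
      have hs : ∑ k : P, rc i k + ∑ k : P, (if i = k then rc i i else 0)
          + (if (i : ℕ) % 4 = 3 then (1 : ZMod 2) else 0) = 0 := by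
        rw [Finset.sum_ite_eq, if_pos (Finset.mem_univ _)]
        have e1 : ∑ k : P, rc i k = ∑ q ∈ P, rc i q := Finset.sum_coe_sort P (fun q => rc i q)
        rw [e1, sum_rc]
        unfold rc
        by_cases hi : (i : ℕ) % 4 = 3
        · rw [if_pos hi, if_pos ⟨hi, hi⟩, if_pos hi]
          obtain ⟨k, hk⟩ := heven
          rw [hk]; push_cast
          rw [two, zero_add]
          exact two 1
        · rw [if_neg hi, if_neg (fun h => hi h.1), if_neg hi, add_zero, add_zero]
      rw [add_assoc, hs, add_zero]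
    · rw [if_neg (Ne.symm h), if_neg (Ne.symm h), if_neg h, if_neg h, if_neg h, hrec j h,
        add_zero, add_zero]
  simp only [Matrix.mulVec, dotProduct, Matrix.transpose_apply]
  rw [Finset.sum_congr rfl (fun j _ => by rw [hentry j])]
  simp only [add_mul, Finset.sum_add_distrib, ite_mul, zero_mul]
  rw [Finset.sum_ite_eq, if_pos (Finset.mem_univ _), Finset.sum_mul]
  rw [Finset.sum_ite_eq, if_pos (Finset.mem_univ _), one_mul]
  congr 1
  rw [← Finset.sum_add_distrib, ← Finset.sum_add_distrib, Finset.sum_filter]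
  refine Finset.sum_congr rfl fun j _ => ?_
  have hs : ∀ s t : ZMod 2, s + t = if s ≠ t then 1 else 0 := by decide
  by_cases h : i = j
  · subst h; simp
  · rw [if_neg h, if_neg h]
    by_cases h2 : x j ≠ x i
    · rw [if_pos h2]
      have := hs (x j) (x i)
      rw [if_pos h2] at this
      calc _ = (ee i j + rc i j) * (x j + x i) := by ring
        _ = _ := by rw [this, mul_one]
    · rw [if_neg h2]
      have := hs (x j) (x i)
      rw [if_neg h2] at this
      calc _ = (ee i j + rc i j) * (x j + x i) := by ring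
        _ = _ := by rw [this, mul_zero]

/-- the symbol of `2` -/
theorem sum_ee_two (S : Finset ℕ) (hS : ∀ q ∈ S, q.Prime ∧ q % 2 = 1) :
    ∑ q ∈ S, ee q 2 = if (∏ q ∈ S, q) % 8 = 1 ∨ (∏ q ∈ S, q) % 8 = 7 then 0 else 1 := by
  have key : (∏ q ∈ S, q) % 2 = 1 ∧
      ∑ q ∈ S, ee q 2 = if (∏ q ∈ S, q) % 8 = 1 ∨ (∏ q ∈ S, q) % 8 = 7 then 0 else 1 := by
    induction S using Finset.induction_on with
    | empty => simp
    | insert a s ha ih =>
      obtain ⟨ih1, ih2⟩ := ih (fun q hq => hS q (Finset.mem_insert_of_mem hq))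
      rw [Finset.prod_insert ha, Finset.sum_insert ha]
      obtain ⟨hap, ha2⟩ := hS a (Finset.mem_insert_self a s)
      have := Fact.mk hap
      have hea : ee a 2 = if a % 8 = 1 ∨ a % 8 = 7 then 0 else 1 := by
        have h1 := ZMod.exists_sq_eq_two_iff (p := a) (by omega)
        by_cases h : a % 8 = 1 ∨ a % 8 = 7
        · rw [if_pos h, ee_eq_zero]
          have := h1.mpr h
          simpa using this
        · rw [if_neg h, ee_eq_one]
          intro h2
          exact h (h1.mp (by simpa using h2))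
      rw [hea, ih2]
      generalize (∏ q ∈ s, q) = m at *
      refine ⟨by rw [Nat.mul_mod, ha2, ih1], ?_⟩
      rw [Nat.mul_mod]
      have h1 : a % 8 = 1 ∨ a % 8 = 3 ∨ a % 8 = 5 ∨ a % 8 = 7 := by omega
      have h2 : m % 8 = 1 ∨ m % 8 = 3 ∨ m % 8 = 5 ∨ m % 8 = 7 := by omega
      rcases h1 with h1 | h1 | h1 | h1 <;> rcases h2 with h2 | h2 | h2 | h2 <;> rw [h1, h2] <;>
        decide
  exact key.2

/-- the kernel of the extended Redei matrix -/
theorem kernel_ext {D : ℕ} {P : Finset ℕ} (hP : P = D.primeFactors) (hsf : Squarefree D)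
    (hD2 : D % 2 = 1)
    (H : ∀ t a b : ℕ, (t = 1 ∨ t = 2) → a * b = D →
      (∀ q : ℕ, q.Prime → q ∣ b → IsSquare ((t * a : ℕ) : ZMod q)) →
      (∀ q : ℕ, q.Prime → q ∣ a → IsSquare ((t * b : ℕ) : ZMod q)) → t = 1 ∧ (a = 1 ∨ b = 1))
    (x : P → ZMod 2) (s : ZMod 2) (hx : ∀ i : P, (RM P).mulVec x i + s * ee i 2 = 0) :
    s = 0 ∧ (x = 0 ∨ x = 1) := by
  classical
  have hPp : ∀ p ∈ P, p.Prime := fun p hp => Nat.prime_of_mem_primeFactors (hP ▸ hp)
  have hPd : ∀ p ∈ P, p ∣ D := fun p hp => Nat.dvd_of_mem_primeFactors (hP ▸ hp)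
  have hprod : ∏ p ∈ P, p = D := by rw [hP]; exact Nat.prod_primeFactors_of_squarefree hsf
  have hcop : ∀ p ∈ P, ∀ q ∈ P, p ≠ q → ¬ p ∣ q := by
    intro p hp q hq hpq h
    exact hpq ((Nat.prime_dvd_prime_iff_eq (hPp p hp) (hPp q hq)).mp h)
  have hz2 : ∀ s : ZMod 2, s = 0 ∨ s = 1 := by decide
  have hform : ∀ (x : P → ZMod 2) (i : P) (S : Finset ℕ), S ⊆ P →
      (∀ q (hq : q ∈ P), q ∈ S ↔ x ⟨q, hq⟩ ≠ x i) →
      (RM P).mulVec x i = ee i (∏ q ∈ S, q) ∧ ¬ (i : ℕ) ∣ ∏ q ∈ S, q := by
    intro x i S hSP hS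
    have hnd : ∀ q ∈ S, ¬ (i : ℕ) ∣ q := by
      intro q hq
      apply hcop i i.2 q (hSP hq)
      intro h
      have := (hS q (hSP hq)).mp hq
      apply this
      congr 1
      exact Subtype.ext h.symm
    constructor
    · rw [RM_mulVec]
      obtain ⟨S', h3, h4, h5⟩ := prod_filter_coe P (fun j => x j ≠ x i)
      rw [h5 (fun q => ee i q)]
      have : S' = S := by
        ext q
        constructor
        · intro hq
          exact (hS q (h3 hq)).mpr ((h4 q (h3 hq)).mp hq)
        · intro hq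
          exact (h4 q (hSP hq)).mpr ((hS q (hSP hq)).mp hq)
      rw [this, ee_prod (hPp i i.2)]
      exact hnd
    · intro h
      obtain ⟨q, hq, hpq⟩ := (Prime.dvd_finsetProd_iff (hPp i i.2).prime _).mp h
      exact hnd q hq hpq
  set S := P.filter (fun q => ∃ hq : q ∈ P, x ⟨q, hq⟩ = 1) with hS
  set S' := P.filter (fun q => ¬ ∃ hq : q ∈ P, x ⟨q, hq⟩ = 1) with hS'
  have hSm : ∀ q (hq : q ∈ P), q ∈ S ↔ x ⟨q, hq⟩ = 1 := by
    intro q hq
    rw [hS, Finset.mem_filter]
    constructor
    · rintro ⟨_, _, h⟩; exact h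
    · intro h; exact ⟨hq, hq, h⟩
  have hSm' : ∀ q (hq : q ∈ P), q ∈ S' ↔ x ⟨q, hq⟩ = 0 := by
    intro q hq
    rw [hS', Finset.mem_filter]
    constructor
    · rintro ⟨_, h⟩
      rcases hz2 (x ⟨q, hq⟩) with h0 | h0
      · exact h0
      · exact absurd ⟨hq, h0⟩ h
    · intro h
      refine ⟨hq, ?_⟩
      rintro ⟨_, h'⟩
      rw [h] at h'
      exact absurd h' (by decide)
  have hmul : (∏ q ∈ S, q) * ∏ q ∈ S', q = D := by
    rw [hS, hS', Finset.prod_filter_mul_prod_filter_not, hprod]
  have hmem : ∀ (U : Finset ℕ), U ⊆ P → ∀ p : ℕ, p.Prime → p ∣ ∏ q ∈ U, q → p ∈ U := by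
    intro U hU p hp hpd
    obtain ⟨q, hq, hpq⟩ := (Prime.dvd_finsetProd_iff hp.prime _).mp hpd
    rwa [(Nat.prime_dvd_prime_iff_eq hp (hPp q (hU hq))).mp hpq]
  have hSP : S ⊆ P := Finset.filter_subset _ _
  have hSP' : S' ⊆ P := Finset.filter_subset _ _
  obtain ⟨t, ht, hts⟩ : ∃ t : ℕ, (t = 1 ∨ t = 2) ∧
      ((s = 0 ∧ t = 1) ∨ (s = 1 ∧ t = 2)) := by
    rcases hz2 s with h | h
    · exact ⟨1, Or.inl rfl, Or.inl ⟨h, rfl⟩⟩
    · exact ⟨2, Or.inr rfl, Or.inr ⟨h, rfl⟩⟩
  have htee : ∀ (i : P) (m : ℕ), ¬ (i : ℕ) ∣ m → ee i (t * m) = ee i m + s * ee i 2 := by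
    intro i m hm
    rcases hts with ⟨h1, h2⟩ | ⟨h1, h2⟩
    · rw [h1, h2]; simp
    · rw [h1, h2, one_mul, ee_mul (hPp i i.2) _ hm, add_comm]
      intro h
      have h5 := (Nat.prime_dvd_prime_iff_eq (hPp i i.2) Nat.prime_two).mp h
      have := hPd i i.2
      rw [h5] at this
      omega
  have g1 : ∀ p : ℕ, p.Prime → p ∣ ∏ q ∈ S', q →
      IsSquare ((t * (∏ q ∈ S, q) : ℕ) : ZMod p) := by
    intro p hp hpd
    have hpS := hmem S' hSP' p hp hpd
    have hpP := hSP' hpS
    have hxp := (hSm' p hpP).mp hpS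
    have := hform x ⟨p, hpP⟩ S hSP (by
      intro q hq
      rw [hSm q hq, hxp]
      rcases hz2 (x ⟨q, hq⟩) with h0 | h0 <;> simp [h0])
    have h6 := htee ⟨p, hpP⟩ _ this.2
    rw [← this.1, hx] at h6
    exact ee_eq_zero.mp h6
  have g2 : ∀ p : ℕ, p.Prime → p ∣ ∏ q ∈ S, q →
      IsSquare ((t * (∏ q ∈ S', q) : ℕ) : ZMod p) := by
    intro p hp hpd
    have hpS := hmem S hSP p hp hpd
    have hpP := hSP hpS
    have hxp := (hSm p hpP).mp hpS
    have := hform x ⟨p, hpP⟩ S' hSP' (by
      intro q hq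
      rw [hSm' q hq, hxp]
      rcases hz2 (x ⟨q, hq⟩) with h0 | h0 <;> simp [h0])
    have h6 := htee ⟨p, hpP⟩ _ this.2
    rw [← this.1, hx] at h6
    exact ee_eq_zero.mp h6
  obtain ⟨ht1, hor⟩ := H t _ _ ht hmul g1 g2
  refine ⟨?_, ?_⟩
  · rcases hts with ⟨h1, h2⟩ | ⟨h1, h2⟩
    · exact h1
    · omega
  rcases hor with h | h
  · left
    funext ⟨q, hq⟩
    rcases hz2 (x ⟨q, hq⟩) with h0 | h0
    · exact h0
    · exfalso
      have hqS := (hSm q hq).mpr h0
      have := Finset.dvd_prod_of_mem (fun q : ℕ => q) hqS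
      rw [h] at this
      exact (hPp q hq).one_lt.ne' (Nat.dvd_one.mp this)
  · right
    funext ⟨q, hq⟩
    rcases hz2 (x ⟨q, hq⟩) with h0 | h0
    · exfalso
      have hqS := (hSm' q hq).mpr h0
      have := Finset.dvd_prod_of_mem (fun q : ℕ => q) hqS
      rw [h] at this
      exact (hPp q hq).one_lt.ne' (Nat.dvd_one.mp this)
    · exact h0

/-- **(T2)** -/
theorem T2_aux {d : ℕ} (hsf : Squarefree d) (hd4 : d % 4 = 1)
    (H : ∀ t a b : ℕ, (t = 1 ∨ t = 2) → a * b = d →
      (∀ q : ℕ, q.Prime → q ∣ b → IsSquare ((t * a : ℕ) : ZMod q)) →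
      (∀ q : ℕ, q.Prime → q ∣ a → IsSquare ((t * b : ℕ) : ZMod q)) → t = 1 ∧ (a = 1 ∨ b = 1))
    (a b : ℤ) (hab : a * b = -d) (ha8 : a % 8 = 1)
    (h1 : ∀ q : ℕ, q.Prime → (q : ℤ) ∣ b → IsSquare (a : ZMod q))
    (h2 : ∀ q : ℕ, q.Prime → (q : ℤ) ∣ a → IsSquare (b : ZMod q)) : a = 1 := by
  classical
  have hd0 : d ≠ 0 := hsf.ne_zero
  obtain ⟨m, hm⟩ : ∃ m, a.natAbs = m := ⟨_, rfl⟩
  obtain ⟨M, hM⟩ : ∃ M, b.natAbs = M := ⟨_, rfl⟩
  have hmM : m * M = d := by
    rw [← hm, ← hM, ← Int.natAbs_mul, hab]; simp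
  have hmd : m ∣ d := ⟨M, hmM.symm⟩
  have hMd : M ∣ d := ⟨m, by rw [mul_comm]; exact hmM.symm⟩
  have hmsf : Squarefree m := hsf.squarefree_of_dvd hmd
  have hMsf : Squarefree M := hsf.squarefree_of_dvd hMd
  have hm0 : m ≠ 0 := hmsf.ne_zero
  have hM0 : M ≠ 0 := hMsf.ne_zero
  have hcopr : Nat.Coprime m M := by
    rw [← hmM] at hsf
    exact Nat.coprime_of_squarefree_mul hsf
  have ha4 : a % 4 = 1 := by omega
  have hb4 : (-b) % 4 = 1 := by
    have h5 : (a * (-b)) % 4 = 1 := by
      have : a * (-b) = d := by rw [mul_neg, hab]; ring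
      rw [this]; omega
    rw [Int.mul_emod, ha4, one_mul, Int.emod_emod_of_dvd _ (dvd_refl 4)] at h5
    exact h5
  have ha := sign_eq' hm hmsf ha4
  have hb := sign_eq' (a := -b) (by rw [Int.natAbs_neg]; exact hM) hMsf hb4
  obtain ⟨P, hP⟩ : ∃ P : Finset ℕ, P = d.primeFactors := ⟨_, rfl⟩
  have hPp : ∀ p ∈ P, p.Prime := fun p hp => Nat.prime_of_mem_primeFactors (hP ▸ hp)
  have hPd : ∀ p ∈ P, p ∣ d := fun p hp => Nat.dvd_of_mem_primeFactors (hP ▸ hp)
  have hP2 : ∀ p ∈ P, p % 2 = 1 := by
    intro p hp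
    have hpd := hPd p hp
    rcases (hPp p hp).eq_two_or_odd with h | h
    · rw [h] at hpd; omega
    · exact h
  have heven : Even (P.filter (fun q => q % 4 = 3)).card := by
    rw [hP]; exact filter_card_even hsf hd4
  have hcop : ∀ p ∈ P, ∀ q ∈ P, p ≠ q → ¬ p ∣ q := by
    intro p hp q hq hpq h
    exact hpq ((Nat.prime_dvd_prime_iff_eq (hPp p hp) (hPp q hq)).mp h)
  have hform : ∀ (x : P → ZMod 2) (i : P) (S : Finset ℕ), S ⊆ P →
      (∀ q (hq : q ∈ P), q ∈ S ↔ x ⟨q, hq⟩ ≠ x i) →
      (RM P).transpose.mulVec x i = ee i (∏ q ∈ S, q)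
        + (if (i : ℕ) % 4 = 3 then (((S.filter (fun q => q % 4 = 3)).card : ℕ) : ZMod 2)
            else 0) + (if (i : ℕ) % 4 = 3 then x i else 0) := by
    intro x i S hSP hS
    rw [RMT_mulVec_even hPp hP2 heven]
    obtain ⟨S', h5, h6, h7⟩ := prod_filter_coe P (fun j => x j ≠ x i)
    rw [h7 (fun q => ee i q + rc i q)]
    have : S' = S := by
      ext q
      constructor
      · intro hq
        exact (hS q (h5 hq)).mpr ((h6 q (h5 hq)).mp hq)
      · intro hq
        exact (h6 q (hSP hq)).mpr ((hS q (hSP hq)).mp hq)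
    rw [this, ee_prod (hPp i i.2), Finset.sum_add_distrib, sum_rc]
    intro q hq
    apply hcop i i.2 q (hSP hq)
    intro h
    have := (hS q (hSP hq)).mp hq
    apply this
    congr 1
    exact Subtype.ext h.symm
  have hkT : (RM P).transpose.mulVec
      (fun j : P => if (j : ℕ) ∣ m then (1 : ZMod 2) else 0) = 0 := by
    funext i
    by_cases hi : (i : ℕ) ∣ m
    · have hiM : ¬ (i : ℕ) ∣ M := fun h =>
        (hPp i i.2).one_lt.ne' (Nat.dvd_one.mp (hcopr ▸ Nat.dvd_gcd hi h))
      rw [hform _ i M.primeFactors (hP ▸ Nat.primeFactors_mono hMd hd0),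
        Nat.prod_primeFactors_of_squarefree hMsf]
      · have h6 := sq_neg_pow' (hPp i i.2) hiM
          ((M.primeFactors.filter (fun q => q % 4 = 3)).card + 1) (by
            have h7 : ((-1 : ℤ) ^ ((M.primeFactors.filter (fun q => q % 4 = 3)).card + 1) * M : ℤ)
                = b := by
              rw [pow_succ]
              linear_combination hb
            rw [h7]
            apply h2 i (hPp i i.2)
            rw [← Int.natAbs_dvd_natAbs, hm]; simpa using hi)
        simp only [hi, if_true]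
        rw [Pi.zero_apply]
        refine Eq.trans ?_ h6
        push_cast
        by_cases hi3 : (i : ℕ) % 4 = 3
        · simp only [hi3, if_true]; ring
        · simp only [hi3, if_false]; ring
      · intro q hq
        simp only [hi, if_true]
        have hqp := hPp q hq
        constructor
        · intro hqc
          have hqc' := Nat.dvd_of_mem_primeFactors hqc
          have : ¬ q ∣ m := fun h => hqp.one_lt.ne' (Nat.dvd_one.mp (hcopr ▸ Nat.dvd_gcd h hqc'))
          simp [this]
        · intro h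
          have hna : ¬ q ∣ m := by
            intro h'; simp [h'] at h
          have hqD := hPd q hq
          rw [← hmM] at hqD
          rcases (Nat.Prime.dvd_mul hqp).mp hqD with h' | h'
          · exact absurd h' hna
          · exact Nat.mem_primeFactors.mpr ⟨hqp, h', hM0⟩
    · have hiM : (i : ℕ) ∣ M := by
        have hqD := hPd i i.2
        rw [← hmM] at hqD
        rcases (Nat.Prime.dvd_mul (hPp i i.2)).mp hqD with h' | h'
        · exact absurd h' hi
        · exact h'
      rw [hform _ i m.primeFactors (hP ▸ Nat.primeFactors_mono hmd hd0),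
        Nat.prod_primeFactors_of_squarefree hmsf]
      · have h6 := sq_neg_pow' (hPp i i.2) hi
          (m.primeFactors.filter (fun q => q % 4 = 3)).card (by
            rw [← ha]
            apply h1 i (hPp i i.2)
            rw [← Int.natAbs_dvd_natAbs, hM]; simpa using hiM)
        simp only [hi, if_false]
        rw [Pi.zero_apply]
        refine Eq.trans ?_ h6
        simp
      · intro q hq
        simp only [hi, if_false]
        have hqp := hPp q hq
        constructor
        · intro hqa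
          simp [Nat.dvd_of_mem_primeFactors hqa]
        · intro h
          have hna : q ∣ m := by
            by_contra h'; simp [h'] at h
          exact Nat.mem_primeFactors.mpr ⟨hqp, hna, hm0⟩
  have hk2 : ∑ i : P, (if (i : ℕ) ∣ m then (1 : ZMod 2) else 0) * ee i 2 = 0 := by
    simp only [ite_mul, one_mul, zero_mul]
    have e1 : ∑ i : P, (if (i : ℕ) ∣ m then ee i 2 else 0)
        = ∑ q ∈ P, (if q ∣ m then ee q 2 else 0) :=
      Finset.sum_coe_sort P (fun q => if q ∣ m then ee q 2 else 0)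
    rw [e1, ← Finset.sum_filter]
    have e2 : P.filter (fun q => q ∣ m) = m.primeFactors := by
      ext q
      rw [Finset.mem_filter, hP]
      constructor
      · rintro ⟨h5, h6⟩
        exact Nat.mem_primeFactors.mpr ⟨Nat.prime_of_mem_primeFactors h5, h6, hm0⟩
      · intro h5
        exact ⟨Nat.primeFactors_mono hmd hd0 h5, Nat.dvd_of_mem_primeFactors h5⟩
    rw [e2, sum_ee_two, Nat.prod_primeFactors_of_squarefree hmsf, if_pos]
    · omega
    · intro q hq
      have := Nat.primeFactors_mono hmd hd0 hq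
      rw [← hP] at this
      exact ⟨hPp q this, hP2 q this⟩
  have h0 := ker_transpose_ext (RM P) (fun i => ee i 2)
    (fun x s hx => kernel_ext hP hsf (by omega) H x s hx) _ hkT hk2
  have hm1 : m = 1 := by
    by_contra hm1
    obtain ⟨p, hp, hpm⟩ := Nat.exists_prime_and_dvd hm1
    have hpP : p ∈ P := hP ▸ Nat.mem_primeFactors.mpr ⟨hp, hpm.trans hmd, hd0⟩
    have := congrFun h0 ⟨p, hpP⟩
    simp [hpm] at this
  rw [hm1] at hm
  omega

end Vale.P017.H689
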